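import Vale.Agent.P207Z.Tim

/-!
# P207: sections of subbundles of class S, brackets, and the data of the end game
-/

set_option linter.all false

open Set Filter Topology Metric MeasureTheory VectorField
open scoped ContDiff

noncomputable section

namespace Vale.Agent.P207Z

variable {Γ X B E V : Type} [Group Γ] [Countable Γ] [MetricSpace X] [ProperSpace X]
  [MulAction Γ X] [IsIsometricSMul Γ X] [MeasurableSpace X] [BorelSpace X]
  [TopologicalSpace B] [CompactSpace B] [T2Space B] [SecondCountableTopology B] [MulAction Γ B]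
  [ContinuousConstSMul Γ B] [MeasurableSpace B] [BorelSpace B]
  [NormedAddCommGroup E] [InnerProductSpace ℝ E] [FiniteDimensional ℝ E]
  [NormedAddCommGroup V] [NormedSpace ℝ V] [FiniteDimensional ℝ V]
  {F : Type} [NormedAddCommGroup F] [NormedSpace ℝ F] [FiniteDimensional ℝ F]
  {S : Sys Γ X B E V}

/-- the orthogonal of a subspace for the symplectic form -/
def Sys.perp (S : Sys Γ X B E V) (H : Submodule ℝ V) : Submodule ℝ V where
  carrier := {v | ∀ w ∈ H, S.om w v = 0}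
  add_mem' := fun ha hb w hw => by rw [map_add, ha w hw, hb w hw, add_zero]
  zero_mem' := fun w _ => map_zero _
  smul_mem' := fun c v hv w hw => by rw [map_smul, hv w hw, smul_zero]

/-- the projection on the stable space along the unstable space -/
def Sys.eS (S : Sys Γ X B E V) : V →L[ℝ] V := S.iS ∘L S.pS

/-- the tangent bundle -/
def IsTan (T : Bun S V) : Prop :=
  ∀ x y, ∀ q ∈ S.dom x y, T.A x y q = fderiv ℝ (S.τ x y) q

/-- `s` is a section of `W`, to the order `k`, at the centre of the chart of `x` -/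
def SSub.IsSec {𝔉 : Bun S F} (W : SSub 𝔉) (k : ℕ) (x : X) (s : V → F) : Prop :=
  ContDiffAt ℝ k s 0 ∧ Flat k (fun q => cmp (W.J k x) q (s q)) 0

/-- brackets of sections of `H₁` and `H₂` have their values in `H₃` -/
def Br0 {T : Bun S V} (H₁ H₂ H₃ : SSub T) : Prop :=
  ∀ᵐ x ∂S.μ, ∀ Y₁ Y₂, H₁.IsSec 1 x Y₁ → H₂.IsSec 1 x Y₂ → lieBracket ℝ Y₁ Y₂ 0 ∈ H₃.H x

/-- brackets of sections of `H₁` and `H₂` are sections of `H₃` -/
def Br {T : Bun S V} (H₁ H₂ H₃ : SSub T) : Prop :=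
  ∀ᵐ x ∂S.μ, ∀ k Y₁ Y₂, H₁.IsSec (k + 1) x Y₁ → H₂.IsSec (k + 1) x Y₂ →
    H₃.IsSec k x (lieBracket ℝ Y₁ Y₂)

/-- The data which the end game shows to be contradictory. -/
structure Data {T : Bun S V} (F C Z : SSub T) : Prop where
  F_le : ∀ᵐ x ∂S.μ, F.H x ≤ S.Es
  F_ne : ∀ᵐ x ∂S.μ, F.H x ≠ ⊥
  C_eq : ∀ᵐ x ∂S.μ, C.H x = S.perp (F.H x)
  F_Z : ∀ᵐ x ∂S.μ, F.H x < Z.H x
  Z_le : ∀ᵐ x ∂S.μ, Z.H x ≤ F.H x ⊔ S.Eu
  Z_C : ∀ᵐ x ∂S.μ, Z.H x ≤ C.H x
  brFF : Br F F F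
  brFC : Br F C C
  brFZ : Br F Z Z
  brZZ : Br Z Z Z

/-! ### forms -/

/-- forms of degree `m` -/
abbrev Fm (m : ℕ) (V : Type) [NormedAddCommGroup V] [NormedSpace ℝ V] : Type :=
  V [⋀^Fin m]→L[ℝ] ℝ

/-- `der A α = ∑ i, α (.., A v i, ..)` -/
def der (m : ℕ) (V : Type) [NormedAddCommGroup V] [NormedSpace ℝ V] :
    (V →L[ℝ] V) →L[ℝ] Fm m V →L[ℝ] Fm m V :=
  (ContinuousAlternatingMap.fderivCompContinuousLinearMapCLM ℝ
    (ContinuousLinearMap.id ℝ V) : Fm m V →L[ℝ] (V →L[ℝ] V) →L[ℝ] Fm m V).flip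

/-- the infinitesimal action of `gl V × ℝ` on the twisted forms: `(A, t) • (α, r) = (t α - der A α, 0)` -/
def drho (m : ℕ) (V : Type) [NormedAddCommGroup V] [NormedSpace ℝ V] (a : (V →L[ℝ] V) × ℝ) :
    Fm m V × ℝ →L[ℝ] Fm m V × ℝ :=
  ContinuousLinearMap.inl ℝ (Fm m V) ℝ ∘L (a.2 • 1 - der m V a.1) ∘L
    ContinuousLinearMap.fst ℝ (Fm m V) ℝ

/-- the bundle of twisted forms, times the trivial line -/
def IsFrm {m : ℕ} {b : Module.Basis (Fin m) ℝ E} (M : Marg S b) (Φ : Bun S (Fm m V × ℝ)) : Prop :=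
  ∀ x y, ∀ q ∈ S.dom x y, ∀ a : Fm m V × ℝ, Φ.A x y q a =
    (M.f x y q • a.1.compContinuousLinearMap (fderiv ℝ (S.τ y x) (S.τ x y q)), a.2)

/-- The hull: `W` contains the Margulis section and is killed by the dual section. -/
structure Char {m : ℕ} {b : Module.Basis (Fin m) ℝ E} (M : Marg S b) {Φ : Bun S (Fm m V × ℝ)}
    (W : SSub Φ) : Prop where
  mem : ∀ᵐ x ∂S.μ, (M.es x 0, (1 : ℝ)) ∈ W.H x
  kill : ∀ᵐ x ∂S.μ, ∀ a ∈ W.H x,
    a.1 (fun i => S.iU (b i)) = a.2 * M.es x 0 fun i => S.iU (b i)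

/-- the Lie derivative, at the centre of a chart, of a section of the twisted forms -/
def lieF {m : ℕ} (Y : V → V) (s : V → Fm m V × ℝ) : Fm m V × ℝ :=
  fderiv ℝ s 0 (Y 0) - drho m V (fderiv ℝ Y 0, 0) (s 0)

/-- `W` is invariant under the Lie derivatives along the sections of `H` -/
def LieInv {m : ℕ} {T : Bun S V} {Φ : Bun S (Fm m V × ℝ)} (H : SSub T) (W : SSub Φ) : Prop :=
  ∀ᵐ x ∂S.μ, ∀ Y s, H.IsSec 1 x Y → W.IsSec 1 x s → lieF Y s ∈ W.H x

end Vale.Agent.P207Z
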