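import Vale.Agent.P207Z.Geo.Defs2
import Vale.Agent.P207Z.Bun

/-!
# P207: sections of subbundles of class S
-/

set_option linter.all false

open Set Filter Topology Metric MeasureTheory VectorField
open scoped ContDiff

noncomputable section

namespace Vale.Agent.P207Z

namespace SecAux

section calcu

variable {V F₁ F₂ F₃ G₁ G₂ G₃ G₁' G₂' G₃' : Type} [NormedAddCommGroup V] [NormedSpace ℝ V]
  [NormedAddCommGroup F₁] [NormedSpace ℝ F₁] [NormedAddCommGroup F₂] [NormedSpace ℝ F₂]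
  [NormedAddCommGroup F₃] [NormedSpace ℝ F₃] [NormedAddCommGroup G₁] [NormedSpace ℝ G₁]
  [NormedAddCommGroup G₂] [NormedSpace ℝ G₂] [NormedAddCommGroup G₃] [NormedSpace ℝ G₃]
  [NormedAddCommGroup G₁'] [NormedSpace ℝ G₁'] [NormedAddCommGroup G₂'] [NormedSpace ℝ G₂']
  [NormedAddCommGroup G₃'] [NormedSpace ℝ G₃'] {β : F₁ →L[ℝ] F₂ →L[ℝ] F₃} {r : ℕ}

/-- `β` maps the solutions of `M₁` and `M₂` to solutions of `M₃`, to the order `r` -/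
def ZZ (β : F₁ →L[ℝ] F₂ →L[ℝ] F₃) (r : ℕ) (M₁ : V → F₁ →L[ℝ] G₁) (M₂ : V → F₂ →L[ℝ] G₂)
    (M₃ : V → F₃ →L[ℝ] G₃) : Prop :=
  ∀ (s₁ : V → F₁) (s₂ : V → F₂), ContinuousAt s₁ 0 → ContinuousAt s₂ 0 →
    Flat r (fun q => M₁ q (s₁ q)) 0 → Flat r (fun q => M₂ q (s₂ q)) 0 →
      Flat r (fun q => M₃ q (β (s₁ q) (s₂ q))) 0

theorem ZZ.dom {M₁ : V → F₁ →L[ℝ] G₁} {M₂ : V → F₂ →L[ℝ] G₂} {M₃ : V → F₃ →L[ℝ] G₃}
    {N₁ : V → F₁ →L[ℝ] G₁'} {N₂ : V → F₂ →L[ℝ] G₂'} {N₃ : V → F₃ →L[ℝ] G₃'}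
    (h : ZZ β r M₁ M₂ M₃) (h₁ : Dom r M₁ N₁) (h₂ : Dom r M₂ N₂) (h₃ : Dom r N₃ M₃) :
    ZZ β r N₁ N₂ N₃ := fun s₁ s₂ c₁ c₂ f₁ f₂ =>
  h₃.flat_apply le_rfl ((β.continuous.continuousAt.comp c₁).clm_apply c₂)
    (h s₁ s₂ c₁ c₂ (h₁.flat_apply le_rfl c₁ f₁) (h₂.flat_apply le_rfl c₂ f₂))

theorem cmp_cont {P : V → F₁ →L[ℝ] F₁} {z : V} (h : ContinuousAt P z) : ContinuousAt (cmp P) z :=
  continuousAt_const.sub h

theorem cmp_idem {P : V → F₁ →L[ℝ] F₁} {q : V} (h : P q * P q = P q) (u : F₁) :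
    cmp P q (P q u) = 0 := by
  have := congrArg (fun T : F₁ →L[ℝ] F₁ => T u) h
  simp only [ContinuousLinearMap.mul_apply] at this
  simp [cmp, this]

theorem zz_of [FiniteDimensional ℝ F₁] [FiniteDimensional ℝ F₂] {Q₁ : V → F₁ →L[ℝ] F₁}
    {Q₂ : V → F₂ →L[ℝ] F₂} {M : V → F₃ →L[ℝ] G₃} (c₁ : ContinuousAt Q₁ 0) (c₃ : ContinuousAt M 0)
    (hg : ∀ u v, Flat r (fun q => M q (β (Q₁ q u) (Q₂ q v))) 0) :
    ZZ β r (cmp Q₁) (cmp Q₂) M := by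
  intro s₁ s₂ d₁ d₂ f₁ f₂
  have h1 : Flat r (fun q => ContinuousLinearMap.compL ℝ F₂ F₃ G₃ (M q) ∘L
      β.bilinearComp (Q₁ q) (Q₂ q)) 0 :=
    flat_clm_iff.2 fun u => flat_clm_iff.2 fun v => hg u v
  have h2 := (h1.apply d₁).apply d₂
  have h3 := ((f₁.bilin_left β d₂).add (f₂.bilin_right β (c₁.clm_apply d₁))).bilin_right
    (ContinuousLinearMap.id ℝ (F₃ →L[ℝ] G₃)) c₃
  refine (h2.add h3).congr (Eventually.of_forall fun q => ?_)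
  simp [cmp]

end calcu

variable {Γ X B E V : Type} [Group Γ] [Countable Γ] [MetricSpace X] [ProperSpace X]
  [MulAction Γ X] [IsIsometricSMul Γ X] [MeasurableSpace X] [BorelSpace X]
  [TopologicalSpace B] [CompactSpace B] [T2Space B] [SecondCountableTopology B] [MulAction Γ B]
  [ContinuousConstSMul Γ B] [MeasurableSpace B] [BorelSpace B]
  [NormedAddCommGroup E] [InnerProductSpace ℝ E] [FiniteDimensional ℝ E]
  [NormedAddCommGroup V] [NormedSpace ℝ V] [FiniteDimensional ℝ V]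
  {F₁ F₂ F₃ : Type} [NormedAddCommGroup F₁] [NormedSpace ℝ F₁] [FiniteDimensional ℝ F₁]
  [NormedAddCommGroup F₂] [NormedSpace ℝ F₂] [FiniteDimensional ℝ F₂]
  [NormedAddCommGroup F₃] [NormedSpace ℝ F₃] [FiniteDimensional ℝ F₃]
  {S : Sys Γ X B E V} {𝔉₁ : Bun S F₁} {𝔉₂ : Bun S F₂} {𝔉₃ : Bun S F₃}
  {β : F₁ →L[ℝ] F₂ →L[ℝ] F₃} {k r n : ℕ}

/-- one level of a subbundle of class S, without the measurability -/
structure Pre (𝔉 : Bun S F₁) (k : ℕ) (H : X → Submodule ℝ F₁) (J : X → V → F₁ →L[ℝ] F₁) :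
    Prop where
  reg : ∀ᵐ x ∂S.μ, (∃ n, Prj k n (J x)) ∧ (J x 0).range = H x
  extU : ∀ᵐ x ∂S.μ, ∃ n P, Prj k n P ∧ 𝔉.ExtU k n (fun y => cmp (J y)) x (cmp P)
  extS : ∀ᵐ x ∂S.μ, ∃ n P, Prj k n P ∧ 𝔉.ExtS k n (fun y => cmp (J y)) x (cmp P)

theorem pre (W : SSub 𝔉₁) {k' : ℕ} (hk : k' ≤ k) : Pre 𝔉₁ k' W.H (W.J k) :=
  ⟨(W.reg k).mono fun _ ⟨⟨n, h⟩, h'⟩ => ⟨⟨n, h.mono hk le_rfl⟩, h'⟩,
    (W.extU k).ae.mono fun _ ⟨n, P, h, h'⟩ => ⟨n, P, h.mono hk le_rfl, h'.mono _ hk le_rfl⟩,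
    (W.extS k).ae.mono fun _ ⟨n, P, h, h'⟩ => ⟨n, P, h.mono hk le_rfl, h'.mono _ hk le_rfl⟩⟩

theorem pre_const (S : Sys Γ X B E V) (k : ℕ) {p : ℝ →L[ℝ] ℝ} (hp : p * p = p) (h1 : ‖p‖ ≤ 1) :
    Pre (S.triv ℝ) k (fun _ => p.range) fun _ _ => p := by
  have h2 : Prj k 1 fun _ : V => p := ⟨CkB.const p (by simpa using h1), fun _ _ => hp⟩
  have h3 : ∀ x y : X, Eqv k ((S.triv ℝ).pull y x (cmp fun _ : V => p)) (cmp fun _ : V => p) :=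
    fun x y => Eqv.refl _
  exact ⟨Eventually.of_forall fun x => ⟨⟨1, h2⟩, rfl⟩,
    Eventually.of_forall fun x => ⟨1, _, h2, fun y _ => h3 x y,
      Eventually.of_forall fun _ y _ _ => h3 x y⟩,
    Eventually.of_forall fun x => ⟨1, _, h2, fun y _ => h3 x y,
      Eventually.of_forall fun _ y _ _ => h3 x y⟩⟩

theorem zero_mem (n : ℕ) : (0 : V) ∈ ball (0 : V) (rad n) := mem_ball_self (rad_pos n)

theorem lift {x y : X} {P : V → F₁ →L[ℝ] F₁} (hP : Prj k n P) (h0 : (0 : V) ∈ S.dom y x)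
    (hq : S.τ y x 0 ∈ ball (0 : V) (rad n)) (u : F₁) : ∃ s : V → F₁, ContinuousAt s 0 ∧
      Flat r (fun q => 𝔉₁.pull y x (cmp P) q (s q)) 0 ∧
      ∀ᶠ q in 𝓝 (0 : V), 𝔉₁.A y x q (s q) = P (S.τ y x q) u := by
  have h1 := (Sys.differentiableAt_τ h0).continuousAt
  have h2 : ∀ᶠ q in 𝓝 (0 : V), 𝔉₁.A y x q (𝔉₁.A x y (S.τ y x q) (P (S.τ y x q) u)) =
      P (S.τ y x q) u := by
    filter_upwards [Sys.dom_nhds h0] with q hq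
    rw [← ContinuousLinearMap.mul_apply, 𝔉₁.inv' hq, ContinuousLinearMap.one_apply]
  refine ⟨fun q => 𝔉₁.A x y (S.τ y x q) (P (S.τ y x q) u),
    ((𝔉₁.continuousAt (Sys.τ_dom h0)).comp h1).clm_apply
      (((hP.ckb.continuousAt hq).comp h1).clm_apply continuousAt_const), Flat.zero.congr ?_, h2⟩
  filter_upwards [h2, h1.eventually (hP.ev_idem hq)] with q a1 a2
  simp only [Bun.pull, ContinuousLinearMap.comp_apply, a1, cmp_idem a2]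

theorem transp (hβ : ∀ x y, ∀ q ∈ S.dom x y, ∀ u v,
      β (𝔉₁.A x y q u) (𝔉₂.A x y q v) = 𝔉₃.A x y q (β u v)) {x y : X} {z : V}
    (hz : z ∈ ball (0 : V) (rad n)) (hy : S.pt y = S.c x z) {P₁ : V → F₁ →L[ℝ] F₁}
    {P₂ : V → F₂ →L[ℝ] F₂} {M : V → F₃ →L[ℝ] F₃} (p₁ : Prj k n P₁) (p₂ : Prj k n P₂)
    (h : ZZ β r (𝔉₁.pull y x (cmp P₁)) (𝔉₂.pull y x (cmp P₂)) (𝔉₃.pull y x M)) (u : F₁) (v : F₂) :
    Flat r (fun q => M q (β (P₁ q u) (P₂ q v))) z := by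
  have hz1 : z ∈ ball (0 : V) 1 := ball_subset_ball (rad_le_one n) hz
  have h0 := Sys.zero_dom' hz1 hy
  have h1 := Sys.τ_zero' hz1 hy
  obtain ⟨s₁, a1, a2, a3⟩ := lift (𝔉₁ := 𝔉₁) (r := r) p₁ h0 (h1.symm ▸ hz) u
  obtain ⟨s₂, b1, b2, b3⟩ := lift (𝔉₁ := 𝔉₂) (r := r) p₂ h0 (h1.symm ▸ hz) v
  have h2 : Flat r (fun q => M (S.τ y x q) (β (P₁ (S.τ y x q) u) (P₂ (S.τ y x q) v))) 0 := by
    refine (h s₁ s₂ a1 b1 a2 b2).congr ?_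
    filter_upwards [a3, b3, Sys.dom_nhds h0] with q c1 c2 c3
    simp only [Bun.pull, ContinuousLinearMap.comp_apply, ← hβ y x q c3, c1, c2]
  have h3 : z ∈ S.dom x y := h1 ▸ Sys.τ_dom h0
  have h4 : S.τ x y z = 0 := h1 ▸ Sys.τ_τ h0
  refine (Flat.comp (h4.symm ▸ h2) (Sys.differentiableAt_τ h3)).congr ?_
  filter_upwards [Sys.dom_nhds h3] with q hq
  rw [Sys.τ_τ hq]

theorem eqv_self {x : X} {M R : V → F₁ →L[ℝ] F₁} (h : Eqv k (𝔉₁.pull x x M) R) : Eqv k M R :=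
  h.congr (𝔉₁.pull_self x M).symm EventuallyEq.rfl

theorem dom_axis {M R : V → F₁ →L[ℝ] F₁} (h : Dom k M R) (L : E →L[ℝ] V) :
    Dom k (fun a => M (L a)) fun a => R (L a) :=
  h.pull (A := fun _ => ContinuousLinearMap.id ℝ F₁) L.differentiableAt L.map_zero
    continuousAt_const

theorem zz_main (hβ : ∀ x y, ∀ q ∈ S.dom x y, ∀ u v,
      β (𝔉₁.A x y q u) (𝔉₂.A x y q v) = 𝔉₃.A x y q (β u v))
    {H₁ : X → Submodule ℝ F₁} {H₂ : X → Submodule ℝ F₂} {H₃ : X → Submodule ℝ F₃}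
    {J₁ : X → V → F₁ →L[ℝ] F₁} {J₂ : X → V → F₂ →L[ℝ] F₂} {J₃ : X → V → F₃ →L[ℝ] F₃}
    (w₁ : Pre 𝔉₁ k H₁ J₁) (w₂ : Pre 𝔉₂ k H₂ J₂) (w₃ : Pre 𝔉₃ k H₃ J₃)
    (h : ∀ᵐ x ∂S.μ, ∀ u ∈ H₁ x, ∀ v ∈ H₂ x, β u v ∈ H₃ x) (hr : r ≤ k) :
    ∀ᵐ x ∂S.μ, ZZ β r (cmp (J₁ x)) (cmp (J₂ x)) (cmp (J₃ x)) := by
  induction r with
  | zero =>
    filter_upwards [h, w₁.reg, w₂.reg, w₃.reg] with x hx ⟨⟨n₁, p₁⟩, e₁⟩ ⟨⟨n₂, p₂⟩, e₂⟩ ⟨⟨n₃, p₃⟩, e₃⟩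
    have c₁ := p₁.ckb.continuousAt (zero_mem n₁)
    have c₃ := cmp_cont (p₃.ckb.continuousAt (zero_mem n₃))
    refine zz_of c₁ c₃ fun u v => flat_zero_iff.2 ?_
    obtain ⟨t, ht⟩ : β (J₁ x 0 u) (J₂ x 0 v) ∈ (J₃ x 0).range :=
      e₃ ▸ hx _ (e₁ ▸ ⟨u, rfl⟩) _ (e₂ ▸ ⟨v, rfl⟩)
    have h1 := (c₃.clm_apply ((β.continuous.continuousAt.comp (c₁.clm_apply
      (continuousAt_const (y := u)))).clm_apply ((p₂.ckb.continuousAt (zero_mem n₂)).clm_apply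
        (continuousAt_const (y := v))))).tendsto
    have h2 : cmp (J₃ x) 0 (β (J₁ x 0 u) (J₂ x 0 v)) = 0 :=
      ht ▸ cmp_idem (p₃.idem 0 (zero_mem n₃)) t
    simpa only [Function.comp_def, h2] using h1
  | succ r ih =>
    have ih' := ih (by omega)
    have hr' : r ≤ k := by omega
    filter_upwards [Sys.ae_alongS ih', Sys.ae_alongU ih', w₁.extS, w₂.extS, w₃.extS, w₁.extU,
      w₂.extU, w₃.extU] with x aS aU ⟨n₁, P₁, p₁, e₁⟩ ⟨n₂, P₂, p₂, e₂⟩ ⟨n₃, P₃, p₃, e₃⟩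
      ⟨m₁, Q₁, q₁, f₁⟩ ⟨m₂, Q₂, q₂, f₂⟩ ⟨m₃, Q₃, q₃, f₃⟩
    obtain ⟨n, l₁, l₂, l₃, l₄, l₅, l₆⟩ :
        ∃ n, n₁ ≤ n ∧ n₂ ≤ n ∧ n₃ ≤ n ∧ m₁ ≤ n ∧ m₂ ≤ n ∧ m₃ ≤ n :=
      ⟨n₁ + n₂ + n₃ + m₁ + m₂ + m₃, by omega⟩
    replace p₁ := p₁.mono hr l₁
    replace p₂ := p₂.mono hr l₂
    replace p₃ := p₃.mono hr l₃
    replace q₁ := q₁.mono hr l₄
    replace q₂ := q₂.mono hr l₅
    replace q₃ := q₃.mono hr l₆
    have g₁ := (eqv_self (e₁.1 x rfl)).mono hr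
    have g₂ := (eqv_self (e₂.1 x rfl)).mono hr
    have g₃ := (eqv_self (e₃.1 x rfl)).mono hr
    have bS := ((aS (rad n)).and (e₁.mono _ hr' l₁).2).and
      ((e₂.mono _ hr' l₂).2.and (e₃.mono _ hr' l₃).2)
    have bU := ((aU (rad n)).and (f₁.mono _ hr' l₄).2).and
      ((f₂.mono _ hr' l₅).2.and (f₃.mono _ hr' l₆).2)
    have sm : ∀ {R₁ : V → F₁ →L[ℝ] F₁} {R₂ : V → F₂ →L[ℝ] F₂} {R₃ : V → F₃ →L[ℝ] F₃},
        Prj (r + 1) n R₁ → Prj (r + 1) n R₂ → Prj (r + 1) n R₃ → ∀ u v, ContDiffOn ℝ (r + 1 : ℕ)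
          (fun q => cmp R₃ q (β (R₁ q u) (R₂ q v))) (ball 0 (rad n)) := fun r₁ r₂ r₃ u v =>
      (contDiffOn_const.sub r₃.ckb.smooth).clm_apply ((β.contDiff.comp_contDiffOn
        (r₁.ckb.smooth.clm_apply contDiffOn_const)).clm_apply
          (r₂.ckb.smooth.clm_apply contDiffOn_const))
    have hU : ∀ u v, ∀ a ∈ ball (0 : E) (rad n),
        cmp Q₃ (S.iU a) (β (Q₁ (S.iU a) u) (Q₂ (S.iU a) v)) = 0 := by
      intro u v a ha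
      by_contra hne
      have mp : MapsTo S.iU (ball 0 (rad n)) (ball 0 (rad n)) := fun a ha => by
        rwa [mem_ball_zero_iff, S.norm_iU, ← mem_ball_zero_iff]
      obtain ⟨a', ha', y, y1, ⟨y2, y3⟩, y4, y5⟩ := bU.dense
        (((sm q₁ q₂ q₃ u v).continuousOn.comp S.iU.continuous.continuousOn mp).isOpen_inter_preimage
          isOpen_ball isOpen_compl_singleton) ⟨a, ha, hne⟩
        (inter_subset_left.trans (ball_subset_ball (rad_le_one n))) inter_subset_left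
      exact ha'.2 (transp hβ (mp ha'.1) y1 q₁ q₂ (y2.dom y3.2 y4.2 y5.1) u v).eq_zero
    have c0 : ∀ {F : Type} [NormedAddCommGroup F] [NormedSpace ℝ F] {R : V → F →L[ℝ] F},
        Prj (r + 1) n R → ContinuousAt (fun a => R (S.iU a)) 0 := fun p =>
      ContinuousAt.comp (S.iU.map_zero.symm ▸ p.ckb.continuousAt (zero_mem n))
        S.iU.continuous.continuousAt
    have id0 : ∀ {F : Type} [NormedAddCommGroup F] [NormedSpace ℝ F] {R : V → F →L[ℝ] F},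
        Prj (r + 1) n R → ∀ u, Flat (r + 1) (fun a => cmp R (S.iU a) (R (S.iU a) u)) 0 :=
      fun p u => Flat.zero.congr (by
        filter_upwards [ball_mem_nhds (0 : E) (rad_pos n)] with a ha
        exact cmp_idem (p.idem _ (by rwa [mem_ball_zero_iff, S.norm_iU, ← mem_ball_zero_iff])) u)
    have zU : ZZ β (r + 1) (fun a => cmp P₁ (S.iU a)) (fun a => cmp P₂ (S.iU a))
        fun a => cmp P₃ (S.iU a) :=
      ZZ.dom (zz_of (Q₂ := fun a => Q₂ (S.iU a)) (M := fun a => cmp Q₃ (S.iU a)) (c0 q₁)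
        (cmp_cont (c0 q₃)) fun u v => Flat.zero.congr
          (eventually_of_mem (ball_mem_nhds (0 : E) (rad_pos n)) (hU u v)))
        (dom_axis (((eqv_self (f₁.1 x rfl)).mono hr).trans g₁.symm).1 S.iU)
        (dom_axis (((eqv_self (f₂.1 x rfl)).mono hr).trans g₂.symm).1 S.iU)
        (dom_axis (((eqv_self (f₃.1 x rfl)).mono hr).trans g₃.symm).2 S.iU)
    refine ZZ.dom (zz_of (p₁.ckb.continuousAt (zero_mem n))
      (cmp_cont (p₃.ckb.continuousAt (zero_mem n))) fun u v => ?_) g₁.1 g₂.1 g₃.2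
    refine slice S.iS S.iU S.pS S.pU S.iS_add (rad_pos n) (sm p₁ p₂ p₃ u v) (fun O o1 o2 o3 => ?_)
      (zU _ _ ((c0 p₁).clm_apply continuousAt_const) ((c0 p₂).clm_apply continuousAt_const)
        (id0 p₁ u) (id0 p₂ v))
    have o4 : O ⊆ ball 0 (rad n) := fun w hw => by
      have := o3 w hw
      rwa [mem_ball_zero_iff, S.norm_iS, ← mem_ball_zero_iff] at this
    obtain ⟨w, hw, y, y1, ⟨y2, y3⟩, y4, y5⟩ :=
      bS.dense o1 o2 (o4.trans (ball_subset_ball (rad_le_one n))) o4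
    exact ⟨w, hw, transp hβ (o3 w hw) y1 p₁ p₂ (y2.dom y3.2 y4.2 y5.1) u v⟩

theorem lin (L : F₁ →L[ℝ] F₂)
    (hL : ∀ x y, ∀ q ∈ S.dom x y, ∀ u, L (𝔉₁.A x y q u) = 𝔉₂.A x y q (L u))
    {W₁ : SSub 𝔉₁} {W₂ : SSub 𝔉₂} (h : ∀ᵐ x ∂S.μ, ∀ u ∈ W₁.H x, L u ∈ W₂.H x) :
    ∀ᵐ x ∂S.μ, ∀ k k' s, k' ≤ k → W₁.IsSec k x s → W₂.IsSec k' x fun q => L (s q) := by
  have h1 : ∀ k k', k' ≤ k → ∀ᵐ x ∂S.μ, ZZ ((ContinuousLinearMap.lsmul ℝ ℝ).flip ∘L L) k'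
      (cmp (W₁.J k x)) (cmp fun _ : V => (1 : ℝ →L[ℝ] ℝ)) (cmp (W₂.J k' x)) := fun k k' hk =>
    zz_main (𝔉₂ := S.triv ℝ) (fun x y q hq u t => by
      change t • L (𝔉₁.A x y q u) = 𝔉₂.A x y q (t • L u)
      rw [hL x y q hq, map_smul]) (pre W₁ hk)
      (pre_const S k' (mul_one 1) norm_one.le) (pre W₂ le_rfl)
      (h.mono fun x hx u hu t _ => (W₂.H x).smul_mem t (hx u hu)) le_rfl
  have h2 := ae_all_iff.2 fun k => ae_all_iff.2 fun k' => ae_all_iff.2 (h1 k k')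
  filter_upwards [h2] with x hx k k' s hk hs
  refine ⟨L.contDiff.contDiffAt.comp 0 (hs.1.of_le (by exact_mod_cast hk)), ?_⟩
  simpa using hx k k' hk s (fun _ => 1) hs.1.continuousAt continuousAt_const (hs.2.mono hk)
    (by simpa [cmp] using Flat.zero)

end SecAux

open SecAux

variable {Γ X B E V Y : Type} [Group Γ] [Countable Γ] [MetricSpace X] [ProperSpace X]
  [MulAction Γ X] [IsIsometricSMul Γ X] [MeasurableSpace X] [BorelSpace X]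
  [TopologicalSpace B] [CompactSpace B] [T2Space B] [SecondCountableTopology B] [MulAction Γ B]
  [ContinuousConstSMul Γ B] [MeasurableSpace B] [BorelSpace B]
  [NormedAddCommGroup E] [InnerProductSpace ℝ E] [FiniteDimensional ℝ E]
  [NormedAddCommGroup V] [NormedSpace ℝ V] [FiniteDimensional ℝ V]
  [MeasurableSpace Y] [MulAction Γ Y]
  {F₁ F₂ F₃ : Type} [NormedAddCommGroup F₁] [NormedSpace ℝ F₁] [FiniteDimensional ℝ F₁]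
  [NormedAddCommGroup F₂] [NormedSpace ℝ F₂] [FiniteDimensional ℝ F₂]
  [NormedAddCommGroup F₃] [NormedSpace ℝ F₃] [FiniteDimensional ℝ F₃]
  {S : Sys Γ X B E V}

section Sec

variable {𝔉 : Bun S F₁}

theorem sec_exists (W : SSub 𝔉) :
    ∀ᵐ x ∂S.μ, ∀ k, ∀ v ∈ W.H x, ∃ s, W.IsSec k x s ∧ s 0 = v := by
  filter_upwards [ae_all_iff.2 W.reg] with x hx k v hv
  obtain ⟨⟨n, p⟩, e⟩ := hx k
  obtain ⟨t, rfl⟩ : v ∈ (W.J k x 0).range := e ▸ hv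
  refine ⟨fun q => W.J k x q (W.J k x 0 t), ⟨(p.ckb.contDiffAt (zero_mem n)).clm_apply
    contDiffAt_const, Flat.zero.congr ((p.ev_idem (zero_mem n)).mono fun q hq => cmp_idem hq _)⟩,
    ?_⟩
  exact congrArg (fun T : F₁ →L[ℝ] F₁ => T t) (p.idem 0 (zero_mem n))

theorem sec_mem (W : SSub 𝔉) : ∀ᵐ x ∂S.μ, ∀ k s, W.IsSec k x s → s 0 ∈ W.H x := by
  filter_upwards [ae_all_iff.2 W.reg] with x hx k s hs
  exact (hx k).2 ▸ ⟨s 0, (sub_eq_zero.1 hs.2.eq_zero).symm⟩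

theorem SSub.IsSec.add {W : SSub 𝔉} {k : ℕ} {x : X} {s s' : V → F₁} (h : W.IsSec k x s)
    (h' : W.IsSec k x s') : W.IsSec k x fun q => s q + s' q :=
  ⟨h.1.add h'.1, (h.2.add h'.2).congr (Eventually.of_forall fun q => map_add _ _ _)⟩

theorem SSub.IsSec.smul {W : SSub 𝔉} {k : ℕ} {x : X} {s : V → F₁} {f : V → ℝ} (h : W.IsSec k x s)
    (hf : ContDiffAt ℝ k f 0) : W.IsSec k x fun q => f q • s q :=
  ⟨hf.smul h.1, (h.2.bilin_right (ContinuousLinearMap.lsmul ℝ ℝ) hf.continuousAt).congr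
    (Eventually.of_forall fun q => map_smul _ _ _)⟩

theorem SSub.IsSec.zero (W : SSub 𝔉) (k : ℕ) (x : X) : W.IsSec k x fun _ => 0 :=
  ⟨contDiffAt_const, Flat.zero.congr (Eventually.of_forall fun q => map_zero _)⟩

/-- a section which vanishes at the centre has its derivative in the fibre -/
theorem sec_fderiv (W : SSub 𝔉) : ∀ᵐ x ∂S.μ, ∀ s, W.IsSec 1 x s → s 0 = 0 →
    ∀ v, fderiv ℝ s 0 v ∈ W.H x := by
  filter_upwards [W.reg 1] with x ⟨⟨n, p⟩, e⟩ s hs h0 v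
  have h1 : HasFDerivAt (fun q => cmp (W.J 1 x) q (s q)) (0 : V →L[ℝ] F₁) 0 := by
    have := hs.2
    rw [hasFDerivAt_iff_isLittleO, hs.2.eq_zero, ← Asymptotics.isLittleO_norm_right]
    simpa [Flat] using this
  have h2 : DifferentiableAt ℝ (cmp (W.J 1 x)) 0 := (differentiableAt_const _).sub
    ((p.ckb.contDiffAt (zero_mem n)).differentiableAt (by simp))
  have h3 := (h2.hasFDerivAt.clm_apply (hs.1.differentiableAt (by simp)).hasFDerivAt).unique h1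
  have h4 := congrArg (fun T : V →L[ℝ] F₁ => T v) h3
  simp only [h0, map_zero, add_zero, ContinuousLinearMap.comp_apply,
    ContinuousLinearMap.zero_apply] at h4
  exact e ▸ ⟨fderiv ℝ s 0 v, (sub_eq_zero.1 h4).symm⟩

theorem sec_le (P : Prob S Y) {W W' : SSub 𝔉} (h : ∀ᵐ x ∂S.μ, W.H x ≤ W'.H x) :
    ∀ᵐ x ∂S.μ, ∀ k k' s, k' ≤ k → W.IsSec k x s → W'.IsSec k' x s :=
  lin (ContinuousLinearMap.id ℝ F₁) (fun _ _ _ _ _ => rfl) h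

/-- transport of sections between two charts with the same centre -/
theorem sec_pull (W : SSub 𝔉) : ∀ᵐ x ∂S.μ, ∀ y, S.pt y = S.pt x → ∀ k s, W.IsSec k y s →
    W.IsSec k x fun q => 𝔉.A y x (S.τ x y q) (s (S.τ x y q)) := by
  filter_upwards [ae_all_iff.2 fun k => (W.extS k).ae] with x hx y hy k s hs
  obtain ⟨n, P, -, e, -⟩ := hx k
  have h0 := Sys.zero_dom hy.symm
  have h1 := Sys.τ_zero hy.symm
  have h2 : ContDiffAt ℝ k (S.τ x y) 0 := (Sys.contDiffAt_τ h0).of_le (by exact_mod_cast le_top)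
  have h3 : ContDiffAt ℝ k (fun q => 𝔉.A y x (S.τ x y q) (s (S.τ x y q))) 0 :=
    (((𝔉.contDiffAt (Sys.τ_dom h0)).of_le (by exact_mod_cast le_top)).comp 0 h2).clm_apply
      ((h1.symm ▸ hs.1).comp 0 h2)
  refine ⟨h3, (eqv_self (e x rfl)).2.flat_apply le_rfl h3.continuousAt ?_⟩
  refine (Flat.comp (h1.symm ▸ (e y hy).1.flat_apply le_rfl hs.1.continuousAt hs.2)
    (Sys.differentiableAt_τ h0)).congr ?_
  filter_upwards [Sys.dom_nhds h0] with q hq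
  simp only [Bun.pull, ContinuousLinearMap.comp_apply, Sys.τ_τ hq]

/-- bilinear maps which are natural up to a scalar factor -/
theorem sec_bilin (P : Prob S Y) {𝔉₂ : Bun S F₂} {𝔉₃ : Bun S F₃} (β : F₁ →L[ℝ] F₂ →L[ℝ] F₃)
    (hβ : ∀ x y, ∀ q ∈ S.dom x y, ∀ u v,
      β (𝔉.A x y q u) (𝔉₂.A x y q v) = 𝔉₃.A x y q (β u v))
    {W₁ : SSub 𝔉} {W₂ : SSub 𝔉₂} {W₃ : SSub 𝔉₃}
    (h : ∀ᵐ x ∂S.μ, ∀ u ∈ W₁.H x, ∀ v ∈ W₂.H x, β u v ∈ W₃.H x) :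
    ∀ᵐ x ∂S.μ, ∀ k s₁ s₂, W₁.IsSec k x s₁ → W₂.IsSec k x s₂ →
      W₃.IsSec k x fun q => β (s₁ q) (s₂ q) := by
  filter_upwards [ae_all_iff.2 fun k =>
    zz_main hβ (pre W₁ (le_refl k)) (pre W₂ (le_refl k)) (pre W₃ (le_refl k)) h le_rfl]
    with x hx k s₁ s₂ h₁ h₂
  exact ⟨(β.contDiff.contDiffAt.comp 0 h₁.1).clm_apply h₂.1,
    hx k s₁ s₂ h₁.1.continuousAt h₂.1.continuousAt h₁.2 h₂.2⟩

theorem sec_form (P : Prob S Y) {𝔉₂ : Bun S F₂} (β : F₁ →L[ℝ] F₂ →L[ℝ] ℝ)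
    (hβ : ∀ x y, ∀ q ∈ S.dom x y, ∀ u v, β (𝔉.A x y q u) (𝔉₂.A x y q v) = β u v)
    {W₁ : SSub 𝔉} {W₂ : SSub 𝔉₂} (h : ∀ᵐ x ∂S.μ, ∀ u ∈ W₁.H x, ∀ v ∈ W₂.H x, β u v = 0) :
    ∀ᵐ x ∂S.μ, ∀ k s₁ s₂, W₁.IsSec k x s₁ → W₂.IsSec k x s₂ →
      Flat k (fun q => β (s₁ q) (s₂ q)) 0 := by
  filter_upwards [ae_all_iff.2 fun k => zz_main (𝔉₃ := S.triv ℝ) hβ (pre W₁ (le_refl k))
    (pre W₂ (le_refl k)) (pre_const S k (mul_zero 0) (norm_zero.trans_le zero_le_one))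
    (h.mono fun x hx u hu v hv => hx u hu v hv ▸ zero_mem _) le_rfl] with x hx k s₁ s₂ h₁ h₂
  simpa [cmp] using hx k s₁ s₂ h₁.1.continuousAt h₂.1.continuousAt h₁.2 h₂.2

theorem sec_lin (P : Prob S Y) {𝔉₂ : Bun S F₂} (L : F₁ →L[ℝ] F₂)
    (hL : ∀ x y, ∀ q ∈ S.dom x y, ∀ u, L (𝔉.A x y q u) = 𝔉₂.A x y q (L u))
    {W₁ : SSub 𝔉} {W₂ : SSub 𝔉₂} (h : ∀ᵐ x ∂S.μ, ∀ u ∈ W₁.H x, L u ∈ W₂.H x) :
    ∀ᵐ x ∂S.μ, ∀ k s, W₁.IsSec k x s → W₂.IsSec k x fun q => L (s q) :=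
  (lin L hL h).mono fun _ hx k s => hx k k s le_rfl

end Sec

end Vale.Agent.P207Z
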