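import Vale.Agent.P207Z.Geo.Defs2

/-!
# P207: pointwise algebra of the stabiliser
-/

set_option linter.all false

open Set Filter Topology Metric MeasureTheory VectorField
open scoped ContDiff

noncomputable section

namespace Vale.Agent.P207Z

variable {Γ X B E V Y : Type} [Group Γ] [Countable Γ] [MetricSpace X] [ProperSpace X]
  [MulAction Γ X] [IsIsometricSMul Γ X] [MeasurableSpace X] [BorelSpace X]
  [TopologicalSpace B] [CompactSpace B] [T2Space B] [SecondCountableTopology B] [MulAction Γ B]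
  [ContinuousConstSMul Γ B] [MeasurableSpace B] [BorelSpace B]
  [NormedAddCommGroup E] [InnerProductSpace ℝ E] [FiniteDimensional ℝ E]
  [NormedAddCommGroup V] [NormedSpace ℝ V] [FiniteDimensional ℝ V]
  {S : Sys Γ X B E V} {m : ℕ} {b : Module.Basis (Fin m) ℝ E} {M : Marg S b}
  {Φ : Bun S (Fm m V × ℝ)}

theorem der_apply (A : V →L[ℝ] V) (α : Fm m V) (v : Fin m → V) :
    der m V A α v = ∑ i, α (Function.update v i (A (v i))) := by
  change α.fderivCompContinuousLinearMap (ContinuousLinearMap.id ℝ V) A v = _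
  rw [ContinuousAlternatingMap.fderivCompContinuousLinearMap_apply]
  refine Finset.sum_congr rfl fun i _ => congrArg α (funext fun j => ?_)
  by_cases h : j = i
  · rw [h, Function.update_self, Function.update_self]
  · rw [Function.update_of_ne h, Function.update_of_ne h, ContinuousLinearMap.id_apply]

theorem drho_apply (A : V →L[ℝ] V) (t : ℝ) (a : Fm m V × ℝ) :
    drho m V (A, t) a = (t • a.1 - der m V A a.1, 0) := rfl

theorem der_der (A A' : V →L[ℝ] V) (α : Fm m V) (v : Fin m → V) :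
    der m V A (der m V A' α) v = der m V (A' * A) α v + ∑ i, ∑ j, if j = i then 0 else
      α (Function.update (Function.update v i (A (v i))) j (A' (v j))) := by
  simp only [der_apply, ← Finset.sum_add_distrib]
  refine Finset.sum_congr rfl fun i _ => ?_
  rw [← Finset.add_sum_erase _ _ (Finset.mem_univ i), ← Finset.add_sum_erase _ _ (Finset.mem_univ i),
    if_pos rfl, zero_add, Function.update_self, Function.update_idem]
  refine congrArg₂ (· + ·) rfl (Finset.sum_congr rfl fun j hj => ?_)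
  rw [if_neg (Finset.ne_of_mem_erase hj), Function.update_of_ne (Finset.ne_of_mem_erase hj)]

theorem der_lie (A A' : V →L[ℝ] V) (α : Fm m V) :
    der m V A (der m V A' α) - der m V A' (der m V A α) = der m V (A' * A - A * A') α := by
  ext v
  rw [map_sub, ContinuousAlternatingMap.sub_apply, ContinuousLinearMap.sub_apply,
    ContinuousAlternatingMap.sub_apply, der_der, der_der, Finset.sum_comm, add_sub_add_comm,
    add_eq_left, sub_eq_zero]
  refine Finset.sum_congr rfl fun i _ => Finset.sum_congr rfl fun j _ => ?_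
  by_cases h : i = j
  · rw [if_pos h, if_pos h.symm]
  · rw [if_neg h, if_neg (Ne.symm h), Function.update_comm h]

/-- naturality of `der` -/
theorem der_conj {D D' : V →L[ℝ] V} (h : D' * D = 1) (A : V →L[ℝ] V) (α : Fm m V) :
    der m V (D ∘L A ∘L D') (α.compContinuousLinearMap D') =
      (der m V A α).compContinuousLinearMap D' := by
  ext v
  simp only [der_apply, ContinuousAlternatingMap.compContinuousLinearMap_apply,
    Function.comp_update, ContinuousLinearMap.comp_apply, Function.comp_apply]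
  refine Finset.sum_congr rfl fun i _ => ?_
  rw [← ContinuousLinearMap.mul_apply D' D, h, ContinuousLinearMap.one_apply]

/-- the infinitesimal action as a linear map -/
def drhoL (m : ℕ) (V : Type) [NormedAddCommGroup V] [NormedSpace ℝ V] [FiniteDimensional ℝ V] :
    (V →L[ℝ] V) × ℝ →L[ℝ] Fm m V × ℝ →L[ℝ] Fm m V × ℝ :=
  LinearMap.toContinuousLinearMap
    { toFun := drho m V
      map_add' := fun a a' => ContinuousLinearMap.ext fun w => Prod.ext (by
        change (a.2 + a'.2) • w.1 - der m V (a.1 + a'.1) w.1 =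
          (a.2 • w.1 - der m V a.1 w.1) + (a'.2 • w.1 - der m V a'.1 w.1)
        rw [map_add, ContinuousLinearMap.add_apply]
        module) (add_zero _).symm
      map_smul' := fun c a => ContinuousLinearMap.ext fun w => Prod.ext (by
        change (c * a.2) • w.1 - der m V (c • a.1) w.1 = c • (a.2 • w.1 - der m V a.1 w.1)
        rw [map_smul, ContinuousLinearMap.smul_apply]
        module) (smul_zero c).symm }

theorem drhoL_apply (a : (V →L[ℝ] V) × ℝ) : drhoL m V a = drho m V a := rfl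

/-- the stabiliser in `gl V × ℝ` -/
def stabR (F K : Submodule ℝ V) (W : Submodule ℝ (Fm m V × ℝ)) : Submodule ℝ ((V →L[ℝ] V) × ℝ) where
  carrier := {a | (∀ v ∈ F, a.1 v ∈ F) ∧ (∀ v ∈ K, a.1 v ∈ K) ∧ ∀ w ∈ W, drho m V a w ∈ W}
  add_mem' := fun {a a'} h h' => ⟨fun v hv => F.add_mem (h.1 v hv) (h'.1 v hv),
    fun v hv => K.add_mem (h.2.1 v hv) (h'.2.1 v hv), fun w hw => by
      rw [← drhoL_apply, map_add]
      exact W.add_mem (h.2.2 w hw) (h'.2.2 w hw)⟩
  zero_mem' := ⟨fun _ _ => F.zero_mem, fun _ _ => K.zero_mem, fun w _ => by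
    rw [← drhoL_apply, map_zero]
    exact W.zero_mem⟩
  smul_mem' := fun c a h => ⟨fun v hv => F.smul_mem c (h.1 v hv),
    fun v hv => K.smul_mem c (h.2.1 v hv), fun w hw => by
      rw [← drhoL_apply, map_smul]
      exact W.smul_mem c (h.2.2 w hw)⟩

theorem mem_stabR {F K : Submodule ℝ V} {W : Submodule ℝ (Fm m V × ℝ)} {a : (V →L[ℝ] V) × ℝ} :
    a ∈ stabR F K W ↔ (∀ v ∈ F, a.1 v ∈ F) ∧ (∀ v ∈ K, a.1 v ∈ K) ∧
      ∀ w ∈ W, drho m V a w ∈ W := Iff.rfl

theorem stab_eq (F K : Submodule ℝ V) (W : Submodule ℝ (Fm m V × ℝ)) :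
    stab F K W = (stabR F K W).map (LinearMap.fst ℝ _ _) := by
  rw [stab, ← Submodule.span_eq (Submodule.map _ _)]
  congr 1
  ext A
  exact ⟨fun ⟨h1, h2, t, h3⟩ => ⟨(A, t), ⟨h1, h2, h3⟩, rfl⟩,
    fun ⟨a, h, e⟩ => e ▸ ⟨h.1, h.2.1, a.2, h.2.2⟩⟩

theorem mem_stab {F K : Submodule ℝ V} {W : Submodule ℝ (Fm m V × ℝ)} {A : V →L[ℝ] V} :
    A ∈ stab F K W ↔ (∀ v ∈ F, A v ∈ F) ∧ (∀ v ∈ K, A v ∈ K) ∧
      ∃ t : ℝ, ∀ a ∈ W, drho m V (A, t) a ∈ W := by
  rw [stab_eq]
  exact ⟨fun ⟨a, h, e⟩ => e ▸ ⟨h.1, h.2.1, a.2, h.2.2⟩,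
    fun ⟨h1, h2, t, h3⟩ => ⟨(A, t), ⟨h1, h2, h3⟩, rfl⟩⟩

theorem drho_lie (A A' : V →L[ℝ] V) (t t' : ℝ) : drho m V (A * A' - A' * A, 0) =
    drho m V (A, t) * drho m V (A', t') - drho m V (A', t') * drho m V (A, t) := by
  refine ContinuousLinearMap.ext fun a => ?_
  simp only [ContinuousLinearMap.sub_apply, ContinuousLinearMap.mul_apply, drho_apply,
    Prod.mk_sub_mk, sub_zero, ← der_lie, map_sub (der m V A), map_sub (der m V A'), map_smul]
  congr 1
  module

theorem drho_lie_mem {W : Submodule ℝ (Fm m V × ℝ)} {A A' : V →L[ℝ] V} {t t' : ℝ}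
    (h : ∀ a ∈ W, drho m V (A, t) a ∈ W) (h' : ∀ a ∈ W, drho m V (A', t') a ∈ W) :
    ∀ a ∈ W, drho m V (A * A' - A' * A, 0) a ∈ W := fun a ha => by
  rw [drho_lie A A' t t']
  exact W.sub_mem (h _ (h' a ha)) (h' _ (h a ha))

theorem stab_lie {F K : Submodule ℝ V} {W : Submodule ℝ (Fm m V × ℝ)} :
    ∀ A ∈ stab F K W, ∀ A' ∈ stab F K W, A * A' - A' * A ∈ stab F K W := fun A hA A' hA' => by
  obtain ⟨a1, a2, t, a3⟩ := mem_stab.1 hA
  obtain ⟨b1, b2, t', b3⟩ := mem_stab.1 hA'
  exact mem_stab.2 ⟨fun v hv => F.sub_mem (a1 _ (b1 v hv)) (b1 _ (a1 v hv)),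
    fun v hv => K.sub_mem (a2 _ (b2 v hv)) (b2 _ (a2 v hv)), 0, drho_lie_mem a3 b3⟩

theorem det_update (b : Module.Basis (Fin m) ℝ E) (i : Fin m) (w : E) :
    b.det (Function.update b i w) = b.repr w i := by
  conv_lhs => rw [← b.sum_repr w]
  rw [AlternatingMap.map_update_sum, Finset.sum_eq_single i (fun j _ h => ?_) (by simp),
    AlternatingMap.map_update_smul, Function.update_eq_self, b.det_self, smul_eq_mul, mul_one]
  rw [AlternatingMap.map_update_smul, AlternatingMap.map_update_self _ _ h.symm, smul_zero]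

/-- the derivative of a volume form of the unstable space -/
theorem der_vol {α : Fm m V} {s : ℝ} (h : ∀ v, α v = s * b.det fun i => S.pU (v i))
    (A : V →L[ℝ] V) : der m V A α (fun i => S.iU (b i)) = s * Geo.tr (S.pU ∘L A ∘L S.iU) := by
  rw [der_apply, Geo.tr, LinearMap.trace_eq_matrix_trace ℝ b, Matrix.trace, Finset.mul_sum]
  refine Finset.sum_congr rfl fun i _ => ?_
  rw [h, Matrix.diag, LinearMap.toMatrix_apply, ← det_update]
  congr 2
  funext j
  by_cases e : j = i
  · rw [e, Function.update_self, Function.update_self]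
    rfl
  · rw [Function.update_of_ne e, Function.update_of_ne e, S.pU_iU]

theorem tr_eS (A : V →L[ℝ] V) : Geo.tr (S.eS * A) = Geo.tr A - Geo.tr (S.pU ∘L A ∘L S.iU) := by
  have h : S.eS * A = A - S.iU ∘L (S.pU ∘L A) := ContinuousLinearMap.ext fun v =>
    eq_sub_of_add_eq (S.iS_add (A v))
  rw [h, Geo.tr_sub]
  exact congrArg _ (LinearMap.trace_comp_comm' ((S.pU ∘L A : V →L[ℝ] E) : V →ₗ[ℝ] E)
    (S.iU : E →ₗ[ℝ] V))

/-- the scalar part of an element of the stabiliser is the trace on the unstable space -/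
theorem Char.scalar {W : SSub Φ} (h : Char M W) : ∀ᵐ x ∂S.μ, ∀ A t,
    (∀ a ∈ W.H x, drho m V (A, t) a ∈ W.H x) → t = Geo.tr (S.pU ∘L A ∘L S.iU) := by
  filter_upwards [h.mem, h.kill] with x h1 h2 A t h3
  obtain ⟨s, hs⟩ := M.es_zero x
  have h4 := h2 _ (h3 _ h1)
  have h5 : s ≠ 0 := fun e => M.es_ne x 0 (mem_ball_self one_pos)
    (ContinuousAlternatingMap.ext fun v => by rw [hs, e, zero_mul]; rfl)
  simp only [drho_apply, zero_mul, ContinuousAlternatingMap.sub_apply,
    ContinuousAlternatingMap.smul_apply, der_vol hs, hs, S.pU_iU, b.det_self, smul_eq_mul] at h4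
  exact mul_left_cancel₀ h5 (by linarith)

theorem stab_tr {W : SSub Φ} (h : Char M W) (F K : X → Submodule ℝ V) : ∀ᵐ x ∂S.μ,
    ∀ A ∈ stab (F x) (K x) (W.H x), ∀ A' ∈ stab (F x) (K x) (W.H x),
      Geo.tr (S.eS * (A * A' - A' * A)) = 0 := by
  filter_upwards [h.scalar] with x hx A hA A' hA'
  obtain ⟨-, -, t, a⟩ := mem_stab.1 hA
  obtain ⟨-, -, t', a'⟩ := mem_stab.1 hA'
  rw [tr_eS, ← hx _ 0 (drho_lie_mem a a'), Geo.tr_sub, Geo.tr_comm, sub_self, sub_zero]

end Vale.Agent.P207Z
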