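import Vale.Agent.P207Z.Ops
import Vale.Agent.P207Z.Geo.Stab

/-!
# P207: the stabiliser, its envelope, radical, centre and socle are of class S
-/

set_option linter.all false

open Set Filter Topology Metric MeasureTheory VectorField
open scoped ContDiff

noncomputable section

namespace Vale.Agent.P207Z

variable {Γ X B E V Y : Type} [Group Γ] [Countable Γ] [MetricSpace X] [ProperSpace X]
  [MulAction Γ X] [IsIsometricSMul Γ X] [MeasurableSpace X] [BorelSpace X]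
  [TopologicalSpace B] [CompactSpace B] [T2Space B] [SecondCountableTopology B] [MulAction Γ B]
  [ContinuousConstSMul Γ B] [MeasurableSpace B] [BorelSpace B]
  [NormedAddCommGroup E] [InnerProductSpace ℝ E] [FiniteDimensional ℝ E]
  [NormedAddCommGroup V] [NormedSpace ℝ V] [FiniteDimensional ℝ V]
  [MeasurableSpace Y] [MulAction Γ Y]
  {F₁ F₂ F₃ : Type} [NormedAddCommGroup F₁] [NormedSpace ℝ F₁] [FiniteDimensional ℝ F₁]
  [NormedAddCommGroup F₂] [NormedSpace ℝ F₂] [FiniteDimensional ℝ F₂]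
  [NormedAddCommGroup F₃] [NormedSpace ℝ F₃] [FiniteDimensional ℝ F₃]
  {S : Sys Γ X B E V} {T : Bun S V} {m : ℕ} {b : Module.Basis (Fin m) ℝ E} {M : Marg S b}
  {Φ : Bun S (Fm m V × ℝ)} {𝔈 : Bun S (V →L[ℝ] V)}

namespace Alg

theorem isS {𝔉 : Bun S F₁} (W : SSub 𝔉) : IsS 𝔉 W.H := ⟨W, ae_of_all _ fun _ => rfl⟩

/-- a natural bilinear map is a morphism to the bundle of homomorphisms -/
theorem mor_bilin {𝔉 : Bun S F₁} {𝔊 : Bun S F₂} {ℌ : Bun S F₃} (β : F₁ →L[ℝ] F₂ →L[ℝ] F₃)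
    (h : ∀ x y, ∀ q ∈ S.dom x y, ∀ u v, β (𝔉.A x y q u) (𝔊.A x y q v) = ℌ.A x y q (β u v)) :
    Mor 𝔉 (𝔊.hom ℌ) β :=
  Mor.of_eq fun x y q hq => ContinuousLinearMap.ext fun u => ContinuousLinearMap.ext fun v => by
    rw [ContinuousLinearMap.comp_apply, ContinuousLinearMap.comp_apply, Bun.hom_A,
      ContinuousLinearMap.comp_apply, ContinuousLinearMap.comp_apply, ← h x y q hq,
      ← ContinuousLinearMap.mul_apply (𝔊.A x y q), 𝔊.inv' hq, ContinuousLinearMap.one_apply]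

variable {x y : X} {q : V}

theorem nat_eq (h𝔈 : IsEnd 𝔈) (h : q ∈ S.dom x y) (A : V →L[ℝ] V) :
    𝔈.A x y q A = fderiv ℝ (S.τ x y) q * A * fderiv ℝ (S.τ y x) (S.τ x y q) := h𝔈 x y q h A

theorem nat_one (h𝔈 : IsEnd 𝔈) (h : q ∈ S.dom x y) : 𝔈.A x y q 1 = 1 := by
  rw [nat_eq h𝔈 h, mul_one, Sys.fderiv_τ_inv' h]

theorem nat_mul (h𝔈 : IsEnd 𝔈) (h : q ∈ S.dom x y) (A A' : V →L[ℝ] V) :
    𝔈.A x y q A * 𝔈.A x y q A' = 𝔈.A x y q (A * A') := by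
  simp only [nat_eq h𝔈 h, mul_assoc]
  rw [← mul_assoc (fderiv ℝ (S.τ y x) _), Sys.fderiv_τ_inv h, one_mul]

theorem nat_tr (h𝔈 : IsEnd 𝔈) (h : q ∈ S.dom x y) (A : V →L[ℝ] V) :
    Geo.tr (𝔈.A x y q A) = Geo.tr A := by
  rw [nat_eq h𝔈 h, Geo.tr_comm, ← mul_assoc, Sys.fderiv_τ_inv h, one_mul]

theorem nat_apply (hT : IsTan T) (h𝔈 : IsEnd 𝔈) (h : q ∈ S.dom x y) (A : V →L[ℝ] V) (v : V) :
    𝔈.A x y q A (T.A x y q v) = T.A x y q (A v) := by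
  rw [hT x y q h, ← ContinuousLinearMap.mul_apply, nat_eq h𝔈 h, mul_assoc, Sys.fderiv_τ_inv h,
    mul_one, ContinuousLinearMap.mul_apply]

theorem nat_drho (hΦ : IsFrm M Φ) (h𝔈 : IsEnd 𝔈) (h : q ∈ S.dom x y) (A : V →L[ℝ] V) (t : ℝ)
    (w : Fm m V × ℝ) :
    drho m V (𝔈.A x y q A, t) (Φ.A x y q w) = Φ.A x y q (drho m V (A, t) w) := by
  rw [hΦ x y q h, hΦ x y q h, h𝔈 x y q h, drho_apply, drho_apply, map_smul,
    der_conj (Sys.fderiv_τ_inv h)]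
  refine Prod.ext (ContinuousAlternatingMap.ext fun v => ?_) rfl
  simp only [ContinuousAlternatingMap.sub_apply, ContinuousAlternatingMap.smul_apply,
    ContinuousAlternatingMap.compContinuousLinearMap_apply, smul_eq_mul]
  ring

/-- the trace as a continuous linear form -/
def trL (V : Type) [NormedAddCommGroup V] [NormedSpace ℝ V] [FiniteDimensional ℝ V] :
    (V →L[ℝ] V) →L[ℝ] ℝ :=
  LinearMap.toContinuousLinearMap (LinearMap.trace ℝ V ∘ₗ ContinuousLinearMap.coeLM ℝ)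

theorem trL_apply (A : V →L[ℝ] V) : trL V A = Geo.tr A := rfl

/-- the trace form -/
def trB (V : Type) [NormedAddCommGroup V] [NormedSpace ℝ V] [FiniteDimensional ℝ V] :
    (V →L[ℝ] V) →L[ℝ] (V →L[ℝ] V) →L[ℝ] ℝ :=
  ContinuousLinearMap.compL ℝ _ _ _ (trL V) ∘L ContinuousLinearMap.mul ℝ (V →L[ℝ] V)

theorem trB_apply (A A' : V →L[ℝ] V) : trB V A A' = Geo.tr (A * A') := rfl

/-- the commutator -/
def adB (V : Type) [NormedAddCommGroup V] [NormedSpace ℝ V] :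
    (V →L[ℝ] V) →L[ℝ] (V →L[ℝ] V) →L[ℝ] V →L[ℝ] V :=
  ContinuousLinearMap.mul ℝ (V →L[ℝ] V) - (ContinuousLinearMap.mul ℝ (V →L[ℝ] V)).flip

theorem adB_apply (A A' : V →L[ℝ] V) : adB V A A' = A * A' - A' * A := rfl

theorem mor_id (hT : IsTan T) (h𝔈 : IsEnd 𝔈) :
    Mor 𝔈 (T.hom T) (ContinuousLinearMap.id ℝ _) :=
  mor_bilin _ fun _ _ _ h => nat_apply hT h𝔈 h

theorem mor_fst (𝔉 : Bun S F₁) (𝔊 : Bun S F₂) :
    Mor (𝔉.prod 𝔊) 𝔉 (ContinuousLinearMap.fst ℝ _ _) := Mor.of_eq fun _ _ _ _ => rfl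

theorem mor_drho (hΦ : IsFrm M Φ) (h𝔈 : IsEnd 𝔈) :
    Mor (𝔈.prod (S.triv ℝ)) (Φ.hom Φ) (drhoL m V) :=
  mor_bilin _ fun _ _ _ h a => nat_drho hΦ h𝔈 h a.1 a.2

theorem mor_one (h𝔈 : IsEnd 𝔈) :
    Mor (S.triv ℝ) 𝔈 (ContinuousLinearMap.toSpanSingleton ℝ (1 : V →L[ℝ] V)) :=
  Mor.of_eq fun x y q h => ContinuousLinearMap.ext fun t => by
    change t • (1 : V →L[ℝ] V) = 𝔈.A x y q (t • 1)
    rw [map_smul, nat_one h𝔈 h]

theorem mor_mul (h𝔈 : IsEnd 𝔈) : Mor 𝔈 (𝔈.hom 𝔈) (ContinuousLinearMap.mul ℝ (V →L[ℝ] V)) :=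
  mor_bilin _ fun _ _ _ h => nat_mul h𝔈 h

theorem mor_trB (h𝔈 : IsEnd 𝔈) : Mor 𝔈 (𝔈.hom (S.triv ℝ)) (trB V) :=
  mor_bilin _ fun _ _ _ h A A' => by
    rw [trB_apply, nat_mul h𝔈 h, nat_tr h𝔈 h]
    rfl

theorem mor_adB (h𝔈 : IsEnd 𝔈) : Mor 𝔈 (𝔈.hom 𝔈) (adB V) :=
  mor_bilin _ fun _ _ _ h A A' => by
    rw [adB_apply, adB_apply, nat_mul h𝔈 h, nat_mul h𝔈 h, map_sub]

theorem isS_envK (P : Prob S Y) (h𝔈 : IsEnd 𝔈) {g : X → Submodule ℝ (V →L[ℝ] V)}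
    (hg : IsS 𝔈 g) (k : ℕ) : IsS 𝔈 fun x => Geo.envK (g x) k := by
  induction k with
  | zero =>
    refine (IsS.top.map P (mor_one h𝔈).morV).congr (ae_of_all _ fun x => ?_)
    rw [Geo.envK_zero, LinearMap.span_singleton_eq_range, Submodule.map_top]
    rfl
  | succ k ih =>
    have h := ih.sup P (hg.span₂ P (mor_mul h𝔈).morV ih)
    exact h.congr (ae_of_all _ fun x => (Geo.envK_succ k).symm)

end Alg

theorem exists_isEnd (S : Sys Γ X B E V) : ∃ 𝔈 : Bun S (V →L[ℝ] V), IsEnd 𝔈 :=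
  ⟨S.TV.hom S.TV, fun x y q _ => S.TV.hom_A S.TV x y q⟩

theorem isS_stabR (P : Prob S Y) (hT : IsTan T) (hΦ : IsFrm M Φ) (h𝔈 : IsEnd 𝔈) (F K : SSub T)
    (W : SSub Φ) : IsS (𝔈.prod (S.triv ℝ)) fun x => stabR (F.H x) (K.H x) (W.H x) := by
  have h := ((Alg.mor_id hT h𝔈).comp (Alg.mor_fst 𝔈 (S.triv ℝ))).morV
  have h1 := ((Alg.isS F).hom (Alg.isS F)).comap P h
  have h2 := ((Alg.isS K).hom (Alg.isS K)).comap P h
  have h3 := ((Alg.isS W).hom (Alg.isS W)).comap P (Alg.mor_drho hΦ h𝔈).morV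
  exact (h1.inf P (h2.inf P h3)).congr (ae_of_all _ fun x => Submodule.ext fun a => Iff.rfl)

theorem exists_stabH (P : Prob S Y) (hT : IsTan T) (hΦ : IsFrm M Φ) (h𝔈 : IsEnd 𝔈) (F K : SSub T)
    (W : SSub Φ) : ∃ G : SSub (𝔈.prod (S.triv ℝ)), ∀ᵐ x ∂S.μ, ∀ a : (V →L[ℝ] V) × ℝ,
      a ∈ G.H x ↔ (∀ v ∈ F.H x, a.1 v ∈ F.H x) ∧ (∀ v ∈ K.H x, a.1 v ∈ K.H x) ∧
        ∀ w ∈ W.H x, drho m V a w ∈ W.H x := by
  obtain ⟨G, hG⟩ := isS_stabR P hT hΦ h𝔈 F K W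
  exact ⟨G, hG.mono fun x hx a => hx ▸ mem_stabR⟩

theorem isS_stab (P : Prob S Y) (hT : IsTan T) (hΦ : IsFrm M Φ) (h𝔈 : IsEnd 𝔈) (F K : SSub T)
    (W : SSub Φ) : IsS 𝔈 fun x => stab (F.H x) (K.H x) (W.H x) :=
  ((isS_stabR P hT hΦ h𝔈 F K W).map P (Alg.mor_fst 𝔈 (S.triv ℝ)).morV).congr
    (ae_of_all _ fun _ => (stab_eq _ _ _).symm)

theorem isS_env (P : Prob S Y) (h𝔈 : IsEnd 𝔈) (g : SSub 𝔈) : IsS 𝔈 fun x => Geo.env (g.H x) :=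
  Alg.isS_envK P h𝔈 (Alg.isS g) _

theorem isS_rad (P : Prob S Y) (h𝔈 : IsEnd 𝔈) (g : SSub 𝔈) : IsS 𝔈 fun x => Geo.rad (g.H x) := by
  have h := (isS_env P h𝔈 g).inf P ((isS_env P h𝔈 g).ann.comap P (Alg.mor_trB h𝔈).morV)
  exact h.congr (ae_of_all _ fun x => Submodule.ext fun a => Iff.rfl)

theorem isS_cen (P : Prob S Y) (h𝔈 : IsEnd 𝔈) (g : SSub 𝔈) : IsS 𝔈 fun x => Geo.cen (g.H x) := by
  have h := (isS_env P h𝔈 g).inf P
    (((isS_env P h𝔈 g).hom (isS_rad P h𝔈 g)).comap P (Alg.mor_adB h𝔈).morV)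
  exact h.congr (ae_of_all _ fun x => Submodule.ext fun a => Iff.rfl)

theorem isS_socle (P : Prob S Y) (hT : IsTan T) (h𝔈 : IsEnd 𝔈) (R : SSub 𝔈) (F K : SSub T) :
    IsS T fun x => socle (R.H x) (F.H x) (K.H x) := by
  have h : IsS (T.hom T) R.H := ((Alg.isS R).map P (Alg.mor_id hT h𝔈).morV).congr
    (ae_of_all _ fun _ => Submodule.map_id _)
  refine ((Alg.isS K).inf P (h.coann P (Alg.isS F))).congr (ae_of_all _ fun x => ?_)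
  ext v
  simp only [Submodule.mem_inf, Submodule.mem_iInf, Submodule.mem_comap]
  rfl

end Vale.Agent.P207Z
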