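import Vale.Agent.P207Z.Geo.Defs2
import Vale.Agent.P207Z.Dyn
import Vale.Agent.P207Z.Calc

/-!
# P207: derivatives of the sections along the axes
-/

set_option linter.all false

open Set Filter Topology Metric MeasureTheory VectorField Asymptotics
open scoped ContDiff

noncomputable section

namespace Vale.Agent.P207Z

variable {Γ X B E V Y : Type} [Group Γ] [Countable Γ] [MetricSpace X] [ProperSpace X]
  [MulAction Γ X] [IsIsometricSMul Γ X] [MeasurableSpace X] [BorelSpace X]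
  [TopologicalSpace B] [CompactSpace B] [T2Space B] [SecondCountableTopology B] [MulAction Γ B]
  [ContinuousConstSMul Γ B] [MeasurableSpace B] [BorelSpace B]
  [NormedAddCommGroup E] [InnerProductSpace ℝ E] [FiniteDimensional ℝ E]
  [NormedAddCommGroup V] [NormedSpace ℝ V] [FiniteDimensional ℝ V]
  {S : Sys Γ X B E V} {T : Bun S V}

namespace Axis

theorem dense_le {f g : E → ℝ} {O : Set E} (hO : IsOpen O) (hf : ContinuousOn f O)
    (hg : ContinuousOn g O)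
    (h : ∀ O' : Set E, IsOpen O' → O'.Nonempty → O' ⊆ O → ∃ a ∈ O', f a ≤ g a) :
    ∀ a ∈ O, f a ≤ g a := by
  intro a ha
  by_contra hne
  obtain ⟨b, hb, h1⟩ := h _ ((hf.sub hg).isOpen_inter_preimage hO (isOpen_Ioi (a := 0)))
    ⟨a, ha, sub_pos.2 (not_le.1 hne)⟩ inter_subset_left
  exact absurd (sub_pos.1 hb.2) (not_lt.2 h1)

theorem fderiv_eq_zero {W : Type} [NormedAddCommGroup W] [NormedSpace ℝ W] {f : V → V}
    (hf : DifferentiableAt ℝ f 0) (L : V →L[ℝ] W) (i : E →L[ℝ] V) (c : W)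
    (h : Flat 1 (fun w => L (f (i w)) - c) 0) (w : E) : L (fderiv ℝ f 0 (i w)) = 0 := by
  have h4 : HasFDerivAt f (fderiv ℝ f 0) (i 0) := by
    rw [map_zero]
    exact hf.hasFDerivAt
  have h2 := (L.hasFDerivAt.comp 0 (HasFDerivAt.comp 0 h4 i.hasFDerivAt)).sub_const c
  have h3 : HasFDerivAt (fun w => L (f (i w)) - c) (0 : E →L[ℝ] W) 0 := by
    rw [hasFDerivAt_iff_isLittleO]
    have h0 := h.eq_zero
    unfold Flat at h
    simp only [pow_one] at h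
    refine (IsLittleO.of_norm_right h).congr_left fun w => ?_
    rw [h0, sub_zero, ContinuousLinearMap.zero_apply, sub_zero]
  exact congrArg (fun A : E →L[ℝ] W => A w) (h2.unique h3)

/-- the fibre at `y`, read in the chart of `x` -/
def Rd (H : SSub T) (P : V → V →L[ℝ] V) (x y : X) : Prop :=
  ∀ q ∈ ball (0 : V) 1, S.pt y = S.c x q → ∀ v,
    v ∈ H.H y ↔ P q (fderiv ℝ (S.τ y x) 0 v) = fderiv ℝ (S.τ y x) 0 v

theorem rd (hT : IsTan T) {H : SSub T} {P : V → V →L[ℝ] V} {x y : X}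
    (h : Eqv 1 (T.pull y x (cmp P)) (cmp (H.J 1 y)))
    (hr : (∃ n, Prj 1 n (H.J 1 y)) ∧ (H.J 1 y 0).range = H.H y) : Rd H P x y := by
  intro q hq hy v
  obtain ⟨⟨m, hm⟩, r1⟩ := hr
  have k := h.ker_eq
  rw [ker_cmp (hm.idem 0 (mem_ball_self (rad_pos _))), r1] at k
  rw [← k]
  show T.A y x 0 v - P (S.τ y x 0) (T.A y x 0 v) = 0 ↔ _
  rw [hT y x 0 (Sys.zero_dom' hq hy), Sys.τ_zero' hq hy, sub_eq_zero, eq_comm]

theorem eqv_self {H : SSub T} {P : V → V →L[ℝ] V} {x : X}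
    (h : Eqv 1 (T.pull x x (cmp P)) (cmp (H.J 1 x))) : Eqv 1 (cmp P) (cmp (H.J 1 x)) := by
  refine h.congr ?_ EventuallyEq.rfl
  filter_upwards [isOpen_ball.mem_nhds (mem_ball_self one_pos : (0 : V) ∈ ball 0 1)] with q hq
  unfold Bun.pull
  rw [Sys.τ_self hq, T.self x q hq]
  rfl

theorem axS (hT : IsTan T) (H : SSub T) : ∀ᵐ x ∂S.μ, ∃ n P, Prj 1 n P ∧
    Eqv 1 (cmp P) (cmp (H.J 1 x)) ∧ S.AlongS x (rad n) (Rd H P x) := by
  filter_upwards [(H.extS 1).ae, Sys.ae_alongS (H.reg 1)] with x ⟨n, P, hP, h1, h2⟩ h3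
  exact ⟨n, P, hP, eqv_self (h1 x rfl),
    (h2.and (h3 _)).mono le_rfl fun y _ _ hy => rd hT hy.1 hy.2⟩

theorem axU (hT : IsTan T) (H : SSub T) : ∀ᵐ x ∂S.μ, ∃ n P, Prj 1 n P ∧
    Eqv 1 (cmp P) (cmp (H.J 1 x)) ∧ (P 0).range = H.H x ∧ S.AlongU x (rad n) (Rd H P x) := by
  filter_upwards [(H.extU 1).ae, Sys.ae_alongU (H.reg 1), H.reg 1] with x ⟨n, P, hP, h1, h2⟩ h3
    ⟨⟨m, hm⟩, r1⟩
  have k := (eqv_self (h1 x rfl)).ker_eq
  rw [ker_cmp (hm.idem 0 (mem_ball_self (rad_pos _))), r1,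
    ker_cmp (hP.idem 0 (mem_ball_self (rad_pos _)))] at k
  exact ⟨n, P, hP, eqv_self (h1 x rfl), k,
    (h2.and (h3 _)).mono le_rfl fun y _ _ hy => rd hT hy.1 hy.2⟩

theorem lift {x y : X} {q : V} (hq : q ∈ ball (0 : V) 1) (hy : S.pt y = S.c x q) (u : V) :
    fderiv ℝ (S.τ y x) 0 (fderiv ℝ (S.τ x y) q u) = u := by
  have h := Sys.fderiv_τ_inv' (Sys.zero_dom' hq hy)
  rw [Sys.τ_zero' hq hy] at h
  exact congrArg (fun A : V →L[ℝ] V => A u) h

theorem cont {n : ℕ} {P : V → V →L[ℝ] V} (hP : Prj 1 n P) {i : E →L[ℝ] V} {r : ℝ}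
    (hi : ∀ w, ‖i w‖ = ‖w‖) (hr : r ≤ rad n) : ContinuousOn (fun w => P (i w)) (ball 0 r) :=
  hP.ckb.smooth.continuousOn.comp i.continuous.continuousOn fun w hw => by
    rw [mem_ball_zero_iff] at hw ⊢
    rw [hi]
    exact hw.trans_le hr

theorem idem {n : ℕ} {P : V → V →L[ℝ] V} (hP : Prj 1 n P) {q : V} (hq : q ∈ ball (0 : V) (rad n))
    (u : V) : P q (P q u) = P q u := congrArg (fun A : V →L[ℝ] V => A u) (hP.idem q hq)

theorem flat_ax {f : V → V} (h : Flat 1 f 0) (i : E →L[ℝ] V) : Flat 1 (fun w => f (i w)) 0 :=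
  Flat.comp (by rwa [map_zero]) i.differentiableAt

end Axis

open Axis

theorem sec_tanS (hT : IsTan T) {H : SSub T} (h : ∀ᵐ x ∂S.μ, H.H x ≤ S.Es) :
    ∀ᵐ x ∂S.μ, ∀ Y₁, H.IsSec 1 x Y₁ → ∀ w, S.pU (fderiv ℝ Y₁ 0 (S.iS w)) = 0 := by
  filter_upwards [axS hT H, Sys.ae_alongS h] with x ⟨n, P, hP, e, h1⟩ h2 Y₁ hY
  have sub : ball (0 : E) (rad n) ⊆ ball 0 1 := ball_subset_ball (rad_le_one _)
  have C : ∀ u, ∀ w ∈ ball (0 : E) (rad n), ‖S.pU (P (S.iS w) u)‖ ≤ 0 := fun u => by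
    refine dense_le isOpen_ball (S.pU.continuous.comp_continuousOn
      ((cont hP S.norm_iS le_rfl).clm_apply continuousOn_const)).norm continuousOn_const ?_
    intro O hO hne hs
    obtain ⟨w, hw, y, hy, k1, k2⟩ := (h1.and (h2 _)).dense hO hne (hs.trans sub) hs
    have hq := S.iS_mem.2 (sub (hs hw))
    have l := lift hq hy (P (S.iS w) u)
    have k3 := k2 ((k1 _ hq hy (fderiv ℝ (S.τ x y) (S.iS w) (P (S.iS w) u))).2 (by
      rw [l]; exact idem hP (S.iS_mem.2 (hs hw)) u))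
    refine ⟨w, hw, norm_le_zero_iff.2 ?_⟩
    rw [← l, ← S.iS_pS (S.mem_Es.1 k3)]
    exact Sys.pU_fderiv_τ ((congrArg Prod.snd hy).trans (S.c_iS x (sub (hs hw))))
      (Sys.zero_dom' hq hy) (map_zero _) _
  refine fderiv_eq_zero (hY.1.differentiableAt one_ne_zero) S.pU S.iS 0 ?_
  refine ((flat_ax (e.1.flat_apply le_rfl hY.1.continuousAt hY.2) S.iS).clm S.pU).congr ?_
  filter_upwards [ball_mem_nhds (0 : E) (rad_pos n)] with w hw
  show _ = S.pU (Y₁ (S.iS w) - P (S.iS w) (Y₁ (S.iS w)))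
  rw [map_sub, norm_le_zero_iff.1 (C _ w hw)]

theorem es_sec (hT : IsTan T) {C : SSub T} (h : ∀ᵐ x ∂S.μ, S.Es ≤ C.H x) :
    ∀ᵐ x ∂S.μ, ∀ w, ∃ Y₁, C.IsSec 1 x Y₁ ∧ Y₁ 0 = S.iS w ∧
      ∀ w', fderiv ℝ Y₁ 0 (S.iS w') = 0 := by
  filter_upwards [axS hT C, Sys.ae_alongS h] with x ⟨n, P, hP, e, h1⟩ h2 u
  have sub : ball (0 : E) (rad n) ⊆ ball 0 1 := ball_subset_ball (rad_le_one _)
  have D : ∀ w ∈ ball (0 : E) (rad n), ‖P (S.iS w) (S.iS u) - S.iS u‖ ≤ 0 := by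
    refine dense_le isOpen_ball (((cont hP S.norm_iS le_rfl).clm_apply
      continuousOn_const).sub continuousOn_const).norm continuousOn_const ?_
    intro O hO hne hs
    obtain ⟨w, hw, y, hy, k1, k2⟩ := (h1.and (h2 _)).dense hO hne (hs.trans sub) hs
    have hq := S.iS_mem.2 (sub (hs hw))
    have k3 := (k1 _ hq hy (fderiv ℝ (S.τ x y) (S.iS w) (S.iS u))).1 (k2 (S.mem_Es.2
      (Sys.pU_fderiv_τ ((congrArg Prod.snd hy).trans (S.c_iS x (sub (hs hw)))).symm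
        (Sys.mem_dom hq (mem_ball_self one_pos) ((S.c_zero' y).trans hy)) (S.pU_iS w) u)))
    rw [lift hq hy] at k3
    exact ⟨w, hw, by rw [k3, sub_self, norm_zero]⟩
  have z : (0 : V) ∈ ball (0 : V) (rad n) := mem_ball_self (rad_pos n)
  have sm : ContDiffAt ℝ (1 : ℕ) (fun q => P q (S.iS u)) 0 :=
    (hP.ckb.contDiffAt z).clm_apply contDiffAt_const
  refine ⟨fun q => P q (S.iS u), ⟨sm, e.2.flat_apply le_rfl sm.continuousAt
    (Flat.zero.congr ?_)⟩, ?_, ?_⟩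
  · filter_upwards [isOpen_ball.mem_nhds z] with q hq
    exact sub_eq_zero.2 (idem hP hq _).symm
  · simpa [sub_eq_zero] using D 0 (mem_ball_self (rad_pos n))
  · refine fderiv_eq_zero (sm.differentiableAt one_ne_zero) (ContinuousLinearMap.id ℝ V) S.iS
      (S.iS u) (Flat.zero.congr ?_)
    filter_upwards [ball_mem_nhds (0 : E) (rad_pos n)] with w hw
    exact norm_le_zero_iff.1 (D w hw)

theorem sec_tanU (hT : IsTan T) {F Z : SSub T} (hF : ∀ᵐ x ∂S.μ, F.H x ≤ S.Es)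
    (hZ : ∀ᵐ x ∂S.μ, Z.H x ≤ F.H x ⊔ S.Eu) :
    ∀ᵐ x ∂S.μ, ∀ Y₁, Z.IsSec 1 x Y₁ → Y₁ 0 ∈ S.Eu → ∀ a,
      fderiv ℝ Y₁ 0 (S.iU a) ∈ F.H x ⊔ S.Eu := by
  filter_upwards [axU hT F, axU hT Z, Sys.ae_alongU hZ, hF] with x ⟨n, P, hP, _, r, h1⟩
    ⟨m, Q, hQ, e, _, h2⟩ h3 h4 Y₁ hY h0 a
  set ρ := min (rad n) (rad m) with hρ
  have ρ0 : 0 < ρ := lt_min (rad_pos n) (rad_pos m)
  have s1 : ball (0 : E) ρ ⊆ ball 0 (rad n) := ball_subset_ball (min_le_left _ _)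
  have s2 : ball (0 : E) ρ ⊆ ball 0 (rad m) := ball_subset_ball (min_le_right _ _)
  have sub : ball (0 : E) ρ ⊆ ball 0 1 := s1.trans (ball_subset_ball (rad_le_one _))
  have zn : (0 : V) ∈ ball (0 : V) (rad n) := mem_ball_self (rad_pos n)
  have zm : (0 : V) ∈ ball (0 : V) (rad m) := mem_ball_self (rad_pos m)
  set L : V →L[ℝ] V := cmp P 0 ∘L S.iS ∘L S.pS with hL
  have cP := cont hP S.norm_iU (min_le_left _ (rad m))
  have cQ := cont hQ S.norm_iU (min_le_right (rad n) _)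
  have c1 : ContinuousOn (fun a => ‖P (S.iU a) - P 0‖) (ball 0 ρ) :=
    (cP.sub continuousOn_const).norm
  have hO := c1.isOpen_inter_preimage isOpen_ball (isOpen_Iio (a := 1 / 4))
  set O := ball (0 : E) ρ ∩ (fun a => ‖P (S.iU a) - P 0‖) ⁻¹' Iio (1 / 4) with hO'
  have D : ∀ u, ∀ a ∈ O, ‖L (Q (S.iU a) u)‖ ≤
      2 * ‖L‖ * (‖P (S.iU a) - P 0‖ * ‖S.pS (Q (S.iU a) u)‖) := fun u => by
    have c2 := (cQ.clm_apply (continuousOn_const (c := u))).mono (inter_subset_left (t :=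
      (fun a => ‖P (S.iU a) - P 0‖) ⁻¹' Iio (1 / 4)))
    refine dense_le hO (L.continuous.comp_continuousOn c2).norm (continuousOn_const.mul
      ((c1.mono inter_subset_left).mul (S.pS.continuous.comp_continuousOn c2).norm)) ?_
    intro O' hO' hne hs
    have hs' : O' ⊆ ball 0 ρ := hs.trans inter_subset_left
    obtain ⟨b, hb, y, hy, ⟨k1, k2⟩, k3⟩ := (((h1.mono (min_le_left _ (rad m))
      fun _ _ _ h => h).and (h2.mono (min_le_right (rad n) _) fun _ _ _ h => h)).and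
        (h3 _)).dense hO' hne (hs'.trans sub) hs'
    have hq := S.iU_mem.2 (sub (hs' hb))
    have l := lift hq hy (Q (S.iU b) u)
    obtain ⟨f, hf, g, hg, hfg⟩ := Submodule.mem_sup.1 (k3 ((k2 _ hq hy
      (fderiv ℝ (S.τ x y) (S.iU b) (Q (S.iU b) u))).2 (by
        rw [l]; exact idem hQ (S.iU_mem.2 (s2 (hs' hb))) u)))
    have k4 := (k1 _ hq hy f).1 hf
    have k5 : S.pS (Q (S.iU b) u) = S.pS (fderiv ℝ (S.τ y x) 0 f) := by
      rw [← l, ← hfg, map_add, map_add, ← S.iU_pU (S.mem_Eu.1 hg),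
        Sys.pS_fderiv_τ ((congrArg Prod.fst hy).trans (S.c_iU x (sub (hs' hb))))
          (Sys.zero_dom' hq hy) (map_zero _), add_zero]
    refine ⟨b, hb, ?_⟩
    have k6 : L (Q (S.iU b) u) = L (fderiv ℝ (S.τ y x) 0 f) := by
      show cmp P 0 (S.iS (S.pS _)) = cmp P 0 (S.iS (S.pS _))
      rw [k5]
    rw [k6, k5]
    generalize fderiv ℝ (S.τ y x) 0 f = v at k4
    have k7 : S.iS (S.pS (P 0 v)) = P 0 v := S.iS_pS (S.mem_Es.1 (h4 (r ▸ ⟨v, rfl⟩)))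
    have k8 : v = P 0 v + (P (S.iU b) - P 0) v := by
      rw [ContinuousLinearMap.sub_apply, k4, add_sub_cancel]
    have k9 : L (P 0 v) = 0 := by
      show cmp P 0 (S.iS (S.pS _)) = 0
      rw [k7]
      exact sub_eq_zero.2 (idem hP zn v).symm
    have n1 : ‖(P (S.iU b) - P 0) v‖ ≤ ‖P (S.iU b) - P 0‖ * ‖v‖ := ContinuousLinearMap.le_opNorm _ _
    have n2 : ‖P (S.iU b) - P 0‖ < 1 / 4 := (hs hb).2
    have n3 : ‖v‖ ≤ ‖P 0 v‖ + ‖(P (S.iU b) - P 0) v‖ := by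
      conv_lhs => rw [k8]
      exact norm_add_le _ _
    have n4 : ‖P 0 v‖ ≤ ‖S.pS v‖ + ‖(P (S.iU b) - P 0) v‖ := by
      rw [← k7, S.norm_iS, eq_sub_of_add_eq k8.symm, map_sub]
      exact (norm_sub_le _ _).trans (add_le_add le_rfl (S.norm_pS_le _))
    have n5 : ‖v‖ ≤ 2 * ‖S.pS v‖ := by nlinarith [norm_nonneg v]
    have n6 : ‖L v‖ ≤ ‖L‖ * ‖(P (S.iU b) - P 0) v‖ := by
      conv_lhs => rw [k8, map_add, k9, zero_add]
      exact L.le_opNorm _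
    calc ‖L v‖ ≤ ‖L‖ * (‖P (S.iU b) - P 0‖ * (2 * ‖S.pS v‖)) :=
          n6.trans (mul_le_mul_of_nonneg_left (n1.trans
            (mul_le_mul_of_nonneg_left n5 (norm_nonneg _))) (norm_nonneg _))
      _ = _ := by ring
  have fl := e.1.flat_apply le_rfl hY.1.continuousAt hY.2
  have f1 : Flat 1 (fun a => L (Q (S.iU a) (Y₁ (S.iU a)))) 0 := by
    have d1 : DifferentiableAt ℝ (fun a => P (S.iU a)) 0 :=
      DifferentiableAt.comp (g := P) 0 (by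
        rw [map_zero]; exact (hP.ckb.contDiffAt zn).differentiableAt one_ne_zero)
        S.iU.differentiableAt
    have d2 := d1.isBigO_sub.norm_norm
    rw [map_zero] at d2
    have d3 : ContinuousAt (fun q => ‖S.pS (Q q (Y₁ q))‖) 0 := (S.pS.continuous.continuousAt.comp
      ((hQ.ckb.continuousAt zm).clm_apply hY.1.continuousAt)).norm
    have d4 : Q 0 (Y₁ 0) = Y₁ 0 := (sub_eq_zero.1 fl.eq_zero).symm
    have d5 : Tendsto (fun a => ‖S.pS (Q (S.iU a) (Y₁ (S.iU a)))‖) (𝓝 0) (𝓝 0) := by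
      have d6 := d3.tendsto
      rw [d4, S.mem_Eu.1 h0, norm_zero] at d6
      exact d6.comp (S.iU.continuous.tendsto' 0 0 (map_zero _))
    have d7 := d2.mul_isLittleO ((isLittleO_one_iff ℝ).2 d5)
    have d8 : Flat 1 (fun a => ‖P (S.iU a) - P 0‖ * ‖S.pS (Q (S.iU a) (Y₁ (S.iU a)))‖) 0 :=
      d7.congr_right fun a => by rw [mul_one, pow_one]
    refine d8.of_le (2 * ‖L‖) ?_
    filter_upwards [hO.mem_nhds ⟨mem_ball_self ρ0, by simp⟩] with b hb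
    rw [Real.norm_of_nonneg (by positivity)]
    exact D _ b hb
  have f2 := fderiv_eq_zero (hY.1.differentiableAt one_ne_zero) L S.iU 0
    ((((flat_ax fl S.iU).clm L).add f1).congr (Eventually.of_forall fun b => by
      show L _ - 0 = L (Y₁ (S.iU b) - Q (S.iU b) (Y₁ (S.iU b))) + _
      rw [map_sub, sub_add_cancel, sub_zero])) a
  rw [← S.iS_add (fderiv ℝ Y₁ 0 (S.iU a))]
  refine Submodule.add_mem_sup ?_ ⟨_, rfl⟩
  rw [← r, ← ker_cmp (hP.idem 0 zn)]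
  exact f2

end Vale.Agent.P207Z
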