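import Vale.Agent.P207Z.Geo.Defs2
import Vale.Agent.P207Z.Ops

/-!
# P207: brackets of sections of subbundles of class S
-/

set_option linter.all false

open Set Filter Topology Metric MeasureTheory VectorField
open scoped ContDiff

noncomputable section

namespace Vale.Agent.P207Z

variable {Γ X B E V Y : Type} [Group Γ] [Countable Γ] [MetricSpace X] [ProperSpace X]
  [MulAction Γ X] [IsIsometricSMul Γ X] [MeasurableSpace X] [BorelSpace X]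
  [TopologicalSpace B] [CompactSpace B] [T2Space B] [SecondCountableTopology B] [MulAction Γ B]
  [ContinuousConstSMul Γ B] [MeasurableSpace B] [BorelSpace B]
  [NormedAddCommGroup E] [InnerProductSpace ℝ E] [FiniteDimensional ℝ E]
  [NormedAddCommGroup V] [NormedSpace ℝ V] [FiniteDimensional ℝ V]
  [MeasurableSpace Y] [MulAction Γ Y]
  {S : Sys Γ X B E V} {T : Bun S V}

/-- the bracket of two jets: `((v, A), (w, B)) ↦ B v - A w` -/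
def brJ (V : Type) [NormedAddCommGroup V] [NormedSpace ℝ V] :
    V × (V →L[ℝ] V) →L[ℝ] V × (V →L[ℝ] V) →L[ℝ] V :=
  ((ContinuousLinearMap.id ℝ (V →L[ℝ] V)).flip).bilinearComp
      (ContinuousLinearMap.fst ℝ V (V →L[ℝ] V)) (ContinuousLinearMap.snd ℝ V (V →L[ℝ] V)) -
    (ContinuousLinearMap.id ℝ (V →L[ℝ] V)).bilinearComp
      (ContinuousLinearMap.snd ℝ V (V →L[ℝ] V)) (ContinuousLinearMap.fst ℝ V (V →L[ℝ] V))

theorem brJ_apply (a b : V × (V →L[ℝ] V)) : brJ V a b = b.2 a.1 - a.2 b.1 := rfl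

theorem brJ_jet (Y₁ Y₂ : V → V) (q : V) :
    brJ V (Y₁ q, fderiv ℝ Y₁ q) (Y₂ q, fderiv ℝ Y₂ q) = lieBracket ℝ Y₁ Y₂ q := rfl

theorem IsTan.brJ_nat (hT : IsTan T) {x y : X} {q : V} (h : q ∈ S.dom x y)
    (a b : V × (V →L[ℝ] V)) :
    brJ V (T.jet1.A x y q a) (T.jet1.A x y q b) = T.A x y q (brJ V a b) := by
  have h1 : fderiv ℝ (T.A x y) q = fderiv ℝ (fderiv ℝ (S.τ x y)) q :=
    EventuallyEq.fderiv_eq (mem_of_superset (Sys.dom_nhds h) fun q' hq' => hT x y q' hq')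
  have h2 : ∀ v, fderiv ℝ (S.τ y x) (S.τ x y q) (T.A x y q v) = v := fun v => by
    rw [hT x y q h]
    exact DFunLike.congr_fun (Sys.fderiv_τ_inv h) v
  have h3 := ((Sys.contDiffAt_τ h).of_le (m := 2) (WithTop.coe_le_coe.2 le_top)).isSymmSndFDerivAt (by simp)
  have h4 : ∀ c : V × (V →L[ℝ] V), T.jet1.A x y q c = (T.A x y q c.1,
      ((fderiv ℝ (T.A x y) q).flip c.1 + T.A x y q ∘L c.2) ∘L fderiv ℝ (S.τ y x) (S.τ x y q)) :=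
    fun c => rfl
  rw [h4, h4, brJ_apply, brJ_apply, h1]
  simp only [ContinuousLinearMap.comp_apply, h2, add_apply, ContinuousLinearMap.flip_apply, map_sub]
  rw [h3.eq a.1 b.1]
  abel

theorem IsTan.morV_brJ (hT : IsTan T) : MorV T.jet1 (T.jet1.hom T) fun _ _ => brJ V :=
  (Mor.of_eq fun x y q h => ContinuousLinearMap.ext fun a => ContinuousLinearMap.ext fun b => by
    have h1 := hT.brJ_nat h a (T.jet1.A y x (S.τ x y q) b)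
    rw [show T.jet1.A x y q (T.jet1.A y x (S.τ x y q) b) = b from
      DFunLike.congr_fun (T.jet1.inv' h) b] at h1
    rw [ContinuousLinearMap.comp_apply, ContinuousLinearMap.comp_apply, Bun.hom_A]
    exact h1).morV

theorem morV_fst (T : Bun S V) :
    MorV T.jet1 T fun _ _ => ContinuousLinearMap.fst ℝ V (V →L[ℝ] V) :=
  (Mor.of_eq fun x y q h => ContinuousLinearMap.ext fun a => rfl).morV

theorem br_of_br0 (P : Prob S Y) (hT : IsTan T) {H₁ H₂ H₃ : SSub T} (h : Br0 H₁ H₂ H₃) :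
    Br H₁ H₂ H₃ := by
  have h1 : ∀ᵐ x ∂S.μ, ∀ v ∈ H₁.jet1.H x, ∀ w ∈ H₂.jet1.H x, brJ V v w ∈ H₃.H x := by
    filter_upwards [h, H₁.jet1_H, H₂.jet1_H] with x hx h1 h2 v hv w hw
    obtain ⟨s, hs, rfl⟩ := (h1 v).1 hv
    obtain ⟨s', hs', rfl⟩ := (h2 w).1 hw
    exact hx s s' hs hs'
  filter_upwards [ae_all_iff.2 (SSub.sec_bilin P hT.morV_brJ H₁.jet1 H₂.jet1 H₃ h1),
    ae_all_iff.2 H₁.jet1_sec, ae_all_iff.2 H₂.jet1_sec] with x hx h1 h2 k Y₁ Y₂ hY₁ hY₂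
  exact hx k _ _ (h1 k Y₁ hY₁) (h2 k Y₂ hY₂)

theorem isS_brSpan (P : Prob S Y) (hT : IsTan T) (H₁ H₂ : SSub T) : IsS T (brSpan H₁ H₂) := by
  refine (IsS.span₂ P hT.morV_brJ ⟨H₁.jet1, Eventually.of_forall fun _ => rfl⟩
    ⟨H₂.jet1, Eventually.of_forall fun _ => rfl⟩).congr ?_
  filter_upwards [H₁.jet1_H, H₂.jet1_H] with x h1 h2
  refine congrArg _ (Set.ext fun u => ⟨?_, ?_⟩)
  · rintro ⟨v, hv, w, hw, rfl⟩
    obtain ⟨s, hs, rfl⟩ := (h1 v).1 hv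
    obtain ⟨s', hs', rfl⟩ := (h2 w).1 hw
    exact ⟨s, s', hs, hs', rfl⟩
  · rintro ⟨s, s', hs, hs', rfl⟩
    exact ⟨_, (h1 _).2 ⟨s, hs, rfl⟩, _, (h2 _).2 ⟨s', hs', rfl⟩, rfl⟩

theorem chr_eq (H₁ H₂ H₃ : SSub T) : ∀ᵐ x ∂S.μ,
    (H₁.jet1.H x ⊓ (SSub.homSub (H₂.jet1.H x) (H₃.H x)).comap
      (brJ V : V × (V →L[ℝ] V) →ₗ[ℝ] V × (V →L[ℝ] V) →L[ℝ] V)).map
        (ContinuousLinearMap.fst ℝ V (V →L[ℝ] V) : V × (V →L[ℝ] V) →ₗ[ℝ] V) = chr H₁ H₂ H₃ x := by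
  filter_upwards [H₁.jet1_H, H₂.jet1_H] with x h1 h2
  rw [chr, ← Submodule.span_eq (Submodule.map _ _)]
  refine congrArg _ (Set.ext fun u => ⟨?_, ?_⟩)
  · rintro ⟨v, ⟨hv, hv'⟩, rfl⟩
    obtain ⟨s, hs, rfl⟩ := (h1 v).1 hv
    exact ⟨s, hs, rfl, fun s' hs' => hv' _ ((h2 _).2 ⟨s', hs', rfl⟩)⟩
  · rintro ⟨s, hs, rfl, h⟩
    refine ⟨_, ⟨(h1 _).2 ⟨s, hs, rfl⟩, fun w hw => ?_⟩, rfl⟩
    obtain ⟨s', hs', rfl⟩ := (h2 w).1 hw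
    exact h s' hs'

theorem isS_chr (P : Prob S Y) (hT : IsTan T) (H₁ H₂ H₃ : SSub T) : IsS T (chr H₁ H₂ H₃) :=
  (IsS.map P (morV_fst T) (IsS.inf P ⟨H₁.jet1, Eventually.of_forall fun _ => rfl⟩
    (IsS.comap P hT.morV_brJ (IsS.hom ⟨H₂.jet1, Eventually.of_forall fun _ => rfl⟩
      ⟨H₃, Eventually.of_forall fun _ => rfl⟩)))).congr (chr_eq H₁ H₂ H₃)

/-- a jet with zero value has its derivative in the fibre -/
theorem jet1_vert {F : Type} [NormedAddCommGroup F] [NormedSpace ℝ F] [FiniteDimensional ℝ F]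
    {𝔉 : Bun S F} (W : SSub 𝔉) :
    ∀ᵐ x ∂S.μ, ∀ L, (0, L) ∈ W.jet1.H x → ∀ v, L v ∈ W.H x := by
  filter_upwards [W.jet1_H, W.reg 1] with x h1 ⟨⟨n, hn⟩, hr⟩ L hL v
  obtain ⟨s, ⟨hs, hf⟩, he⟩ := (h1 _).1 hL
  obtain ⟨h0, rfl⟩ := Prod.ext_iff.1 he
  have hb : (0 : V) ∈ ball (0 : V) (rad n) := mem_ball_self (rad_pos n)
  have hP : DifferentiableAt ℝ (cmp (W.J 1 x)) 0 :=
    ((hn.ckb.contDiffAt hb).differentiableAt (by simp)).const_sub 1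
  have h2 := hP.hasFDerivAt.clm_apply (hs.differentiableAt (by simp)).hasFDerivAt
  have h3 : HasFDerivAt (fun q => cmp (W.J 1 x) q (s q)) (0 : V →L[ℝ] F) 0 := by
    rw [hasFDerivAt_iff_isLittleO, hf.eq_zero, ← Asymptotics.isLittleO_norm_right]
    simpa [Flat] using hf
  have h4 := DFunLike.congr_fun (h2.unique h3) v
  rw [← hr, ← ker_cmp (hn.idem 0 hb)]
  simpa [← show (0 : F) = s 0 from h0] using h4

theorem mem_chr (P : Prob S Y) {H₁ H₂ H₃ : SSub T} (h : ∀ᵐ x ∂S.μ, H₁.H x ≤ H₃.H x) :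
    ∀ᵐ x ∂S.μ, chr H₁ H₂ H₃ x ≤ H₁.H x ∧ ∀ Y₁ Y₂, H₁.IsSec 1 x Y₁ → Y₁ 0 ∈ chr H₁ H₂ H₃ x →
      H₂.IsSec 1 x Y₂ → lieBracket ℝ Y₁ Y₂ 0 ∈ H₃.H x := by
  filter_upwards [h, chr_eq H₁ H₂ H₃, H₁.jet1_H, H₂.jet1_H, jet1_vert H₁, H₁.sec_val 1]
    with x hx he h1 h2 h3 h4
  refine ⟨Submodule.span_le.2 ?_, fun Y₁ Y₂ hY₁ hm hY₂ => ?_⟩
  · rintro _ ⟨s, hs, rfl, -⟩
    exact h4 s hs
  rw [← he] at hm
  obtain ⟨⟨v, A⟩, ⟨hv, hv'⟩, rfl : v = Y₁ 0⟩ := hm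
  have h5 := (H₁.jet1.H x).sub_mem hv ((h1 _).2 ⟨Y₁, hY₁, rfl⟩)
  rw [Prod.mk_sub_mk, sub_self] at h5
  have h6 := (H₃.H x).add_mem (hv' _ ((h2 _).2 ⟨Y₂, hY₂, rfl⟩)) (hx (h3 _ h5 (Y₂ 0)))
  have h7 : lieBracket ℝ Y₁ Y₂ 0 = brJ V (Y₁ 0, A) (Y₂ 0, fderiv ℝ Y₂ 0) +
      (A - fderiv ℝ Y₁ 0) (Y₂ 0) := by
    rw [← brJ_jet, brJ_apply, brJ_apply, sub_apply]; abel
  rw [h7]
  exact h6

end Vale.Agent.P207Z
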