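import Vale.Agent.P207Z.Geo.Pur.Core

/-!
The enveloping algebra of a family of endomorphisms, its radical, and the purity lemma.
-/

open Module

noncomputable section

namespace Vale.Agent.P207Z.Geo

variable {V : Type*} [NormedAddCommGroup V] [NormedSpace ℝ V]

/-- The trace. -/
def tr (A : V →L[ℝ] V) : ℝ := LinearMap.trace ℝ V (A : V →ₗ[ℝ] V)

theorem tr_zero : tr (0 : V →L[ℝ] V) = 0 := map_zero (LinearMap.trace ℝ V)

theorem tr_add (A B : V →L[ℝ] V) : tr (A + B) = tr A + tr B := map_add (LinearMap.trace ℝ V) _ _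

theorem tr_sub (A B : V →L[ℝ] V) : tr (A - B) = tr A - tr B := map_sub (LinearMap.trace ℝ V) _ _

theorem tr_smul (t : ℝ) (A : V →L[ℝ] V) : tr (t • A) = t * tr A :=
  map_smul (LinearMap.trace ℝ V) t _

theorem tr_comm (A B : V →L[ℝ] V) : tr (A * B) = tr (B * A) :=
  LinearMap.trace_mul_comm ℝ (A : V →ₗ[ℝ] V) B

/-- The span of the products of at most `k` elements. -/
def envK (g : Submodule ℝ (V →L[ℝ] V)) : ℕ → Submodule ℝ (V →L[ℝ] V)
  | 0 => Submodule.span ℝ {1}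
  | k + 1 => envK g k ⊔ Submodule.span ℝ {C | ∃ A ∈ g, ∃ B ∈ envK g k, C = A * B}

/-- The generated algebra. -/
def env (g : Submodule ℝ (V →L[ℝ] V)) : Submodule ℝ (V →L[ℝ] V) := envK g (finrank ℝ V ^ 2)

/-- The radical. -/
def rad (g : Submodule ℝ (V →L[ℝ] V)) : Submodule ℝ (V →L[ℝ] V) where
  carrier := {A | A ∈ env g ∧ ∀ B ∈ env g, tr (A * B) = 0}
  zero_mem' := ⟨zero_mem _, fun B _ => by rw [zero_mul, tr_zero]⟩
  add_mem' := fun ha hb => ⟨add_mem ha.1 hb.1, fun B hB => by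
    rw [add_mul, tr_add, ha.2 B hB, hb.2 B hB, add_zero]⟩
  smul_mem' := fun c _ ha => ⟨Submodule.smul_mem _ c ha.1, fun B hB => by
    rw [smul_mul_assoc, tr_smul, ha.2 B hB, mul_zero]⟩

/-- The centre modulo the radical. -/
def cen (g : Submodule ℝ (V →L[ℝ] V)) : Submodule ℝ (V →L[ℝ] V) where
  carrier := {B | B ∈ env g ∧ ∀ A ∈ env g, B * A - A * B ∈ rad g}
  zero_mem' := ⟨zero_mem _, fun A _ => by
    rw [zero_mul, mul_zero, sub_self]
    exact zero_mem _⟩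
  add_mem' := fun ha hb => ⟨add_mem ha.1 hb.1, fun A hA => by
    rw [add_mul, mul_add, add_sub_add_comm]
    exact add_mem (ha.2 A hA) (hb.2 A hA)⟩
  smul_mem' := fun c _ ha => ⟨Submodule.smul_mem _ c ha.1, fun A hA => by
    rw [smul_mul_assoc, mul_smul_comm, ← smul_sub]
    exact Submodule.smul_mem _ c (ha.2 A hA)⟩

variable {g : Submodule ℝ (V →L[ℝ] V)} {A B : V →L[ℝ] V}

theorem mem_rad : A ∈ rad g ↔ A ∈ env g ∧ ∀ B ∈ env g, tr (A * B) = 0 := Iff.rfl

theorem mem_cen : B ∈ cen g ↔ B ∈ env g ∧ ∀ A ∈ env g, B * A - A * B ∈ rad g := Iff.rfl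

theorem rad_le : rad g ≤ env g := fun _ h => h.1

theorem cen_le : cen g ≤ env g := fun _ h => h.1

theorem envK_zero : envK g 0 = Submodule.span ℝ {1} := rfl

theorem envK_succ (k : ℕ) : envK g (k + 1) =
    envK g k ⊔ Submodule.span ℝ {C | ∃ A ∈ g, ∃ B ∈ envK g k, C = A * B} := rfl

theorem envK_mono : Monotone (envK g) := monotone_nat_of_le_succ fun _ => le_sup_left

theorem one_mem_envK (k : ℕ) : (1 : V →L[ℝ] V) ∈ envK g k :=
  envK_mono (Nat.zero_le k) (Submodule.mem_span_singleton_self _)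

theorem mul_mem_envK {k : ℕ} (hA : A ∈ g) (hB : B ∈ envK g k) : A * B ∈ envK g (k + 1) :=
  Submodule.mem_sup_right (Submodule.subset_span ⟨A, hA, B, hB, rfl⟩)

theorem envK_le {S : Submodule ℝ (V →L[ℝ] V)} (h1 : (1 : V →L[ℝ] V) ∈ S)
    (h : ∀ A ∈ g, ∀ B ∈ S, A * B ∈ S) (k : ℕ) : envK g k ≤ S := by
  induction k with
  | zero => exact (Submodule.span_singleton_le_iff_mem _ _).2 h1
  | succ k ih =>
    refine sup_le ih (Submodule.span_le.2 ?_)
    rintro _ ⟨A, hA, B, hB, rfl⟩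
    exact h A hA B (ih hB)

theorem one_mem_env : (1 : V →L[ℝ] V) ∈ env g := one_mem_envK _

/-- Minimality. -/
theorem env_le {S : Submodule ℝ (V →L[ℝ] V)} (h1 : (1 : V →L[ℝ] V) ∈ S)
    (h : ∀ A ∈ g, ∀ B ∈ S, A * B ∈ S) : env g ≤ S := envK_le h1 h _

/-- Invariant subspaces. -/
theorem mem_env_of {K : Submodule ℝ V} (h : ∀ A ∈ g, ∀ v ∈ K, A v ∈ K) :
    ∀ A ∈ env g, ∀ v ∈ K, A v ∈ K :=
  env_le (S :=
    { carrier := {A | ∀ v ∈ K, A v ∈ K}
      zero_mem' := fun _ _ => K.zero_mem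
      add_mem' := fun ha hb v hv => K.add_mem (ha v hv) (hb v hv)
      smul_mem' := fun c _ ha v hv => K.smul_mem c (ha v hv) })
    (fun _ hv => hv) fun A hA _ hB v hv => h A hA _ (hB v hv)

variable [FiniteDimensional ℝ V]

theorem exists_stab : ∃ k ≤ finrank ℝ V ^ 2, envK g (k + 1) ≤ envK g k := by
  by_contra h
  push Not at h
  have h1 : ∀ k ≤ finrank ℝ V ^ 2 + 1, k ≤ finrank ℝ (envK g k) := fun k => by
    induction k with
    | zero => exact fun _ => Nat.zero_le _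
    | succ k ih =>
      intro hk
      exact (ih (by omega)).trans_lt (Submodule.finrank_lt_finrank_of_lt
        (lt_of_le_not_ge (envK_mono (Nat.le_succ k)) (h k (by omega))))
  have h2 := (h1 _ le_rfl).trans (Submodule.finrank_le _)
  rw [← (LinearMap.toContinuousLinearMap (𝕜 := ℝ) (E := V) (F' := V)).finrank_eq,
    Module.finrank_linearMap] at h2
  nlinarith

theorem mul_mem_env_of (hA : A ∈ g) (hB : B ∈ env g) : A * B ∈ env g := by
  obtain ⟨k, hk, h⟩ := exists_stab (g := g)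
  exact envK_mono hk (h (mul_mem_envK hA
    (env_le (one_mem_envK k) (fun _ h1 _ h2 => h (mul_mem_envK h1 h2)) hB)))

theorem le_env : g ≤ env g := fun A hA => by
  have h := mul_mem_env_of hA one_mem_env
  rwa [mul_one] at h

theorem mul_mem_env (hA : A ∈ env g) (hB : B ∈ env g) : A * B ∈ env g :=
  env_le (S := (env g).comap (LinearMap.mulRight ℝ B)) (by simpa using hB)
    (fun C hC D hD => by
      change C * D * B ∈ env g
      rw [mul_assoc]
      exact mul_mem_env_of hC hD) hA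

theorem pow_mem_env (hA : A ∈ env g) (k : ℕ) : A ^ k ∈ env g := by
  induction k with
  | zero => exact one_mem_env
  | succ k ih =>
    rw [pow_succ]
    exact mul_mem_env ih hA

theorem env_mul (g : Submodule ℝ (V →L[ℝ] V)) : (1 : V →L[ℝ] V) ∈ env g ∧ g ≤ env g ∧
    (∀ A ∈ env g, ∀ B ∈ env g, A * B ∈ env g) ∧
    ∀ S : Submodule ℝ (V →L[ℝ] V), (1 : V →L[ℝ] V) ∈ S → (∀ A ∈ g, ∀ B ∈ S, A * B ∈ S) →
      env g ≤ S :=
  ⟨one_mem_env, le_env, fun _ hA _ hB => mul_mem_env hA hB, fun _ => env_le⟩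

theorem rad_mul_right (hA : A ∈ rad g) (hB : B ∈ env g) : A * B ∈ rad g :=
  ⟨mul_mem_env hA.1 hB, fun C hC => by rw [mul_assoc, hA.2 _ (mul_mem_env hB hC)]⟩

theorem rad_mul_left (hA : A ∈ env g) (hB : B ∈ rad g) : A * B ∈ rad g :=
  ⟨mul_mem_env hA hB.1, fun C hC => by
    rw [mul_assoc, tr_comm, mul_assoc, hB.2 _ (mul_mem_env hC hA)]⟩

omit [FiniteDimensional ℝ V] in
theorem one_mem_cen : (1 : V →L[ℝ] V) ∈ cen g := ⟨one_mem_env, fun A _ => by
  rw [one_mul, mul_one, sub_self]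
  exact zero_mem _⟩

theorem mul_mem_cen (hA : A ∈ cen g) (hB : B ∈ cen g) : A * B ∈ cen g :=
  ⟨mul_mem_env hA.1 hB.1, fun C hC => by
    have h : A * B * C - C * (A * B) = A * (B * C - C * B) + (A * C - C * A) * B := by
      noncomm_ring
    rw [h]
    exact add_mem (rad_mul_left hA.1 (hB.2 C hC)) (rad_mul_right (hA.2 C hC) hB.1)⟩

theorem rad_nil (hA : A ∈ rad g) : IsNilpotent (A : V →ₗ[ℝ] V) :=
  Purx.nil_of_tr fun k => by
    rw [← ContinuousLinearMap.toLinearMap_pow]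
    exact hA.2 _ (pow_mem_env hA.1 k)

/-- The radical kills a vector of every subquotient. -/
theorem soc {F K : Submodule ℝ V} (hFK : F < K) (hK : ∀ A ∈ g, ∀ v ∈ K, A v ∈ K) :
    ∃ v ∈ K, v ∉ F ∧ ∀ A ∈ rad g, A v ∈ F := by
  obtain ⟨N, hN⟩ := Purx.engel (S := (rad g).map (ContinuousLinearMap.coeLM ℝ)) (by
    rintro _ ⟨A, hA, rfl⟩ _ ⟨B, hB, rfl⟩
    exact ⟨A * B - B * A, sub_mem (rad_mul_right hA hB.1) (rad_mul_right hB hA.1), rfl⟩) (by
    rintro _ ⟨A, hA, rfl⟩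
    exact rad_nil hA)
  by_contra h
  push Not at h
  have h1 : ∀ k, ∃ v ∈ K, v ∉ F ∧ v ∈ Purx.ch ((rad g).map (ContinuousLinearMap.coeLM ℝ)) k :=
    fun k => by
      induction k with
      | zero =>
        obtain ⟨v, h1, h2⟩ := SetLike.exists_of_lt hFK
        exact ⟨v, h1, h2, Submodule.mem_top⟩
      | succ k ih =>
        obtain ⟨v, h1, h2, h3⟩ := ih
        obtain ⟨A, hA, h4⟩ := h v h1 h2
        exact ⟨A v, mem_env_of hK A hA.1 v h1, h4, Purx.ch_succ (Submodule.mem_map_of_mem hA) h3⟩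
  obtain ⟨v, -, h2, h3⟩ := h1 N
  rw [hN, Submodule.mem_bot] at h3
  exact h2 (h3 ▸ F.zero_mem)

open TensorProduct in
theorem Purx.exists_cx : ∃ φ : (V →L[ℝ] V) →+* End ℂ (ℂ ⊗[ℝ] V),
    (∀ (t : ℝ) A, φ (t • A) = (t : ℂ) • φ A) ∧ ∀ A, LinearMap.trace ℂ _ (φ A) = tr A :=
  ⟨(End.baseChangeHom ℝ ℂ V : End ℝ V →+* End ℂ (ℂ ⊗[ℝ] V)).comp
      ContinuousLinearMap.toLinearMapRingHom,
    fun t A => (LinearMap.baseChange_smul t (A : V →ₗ[ℝ] V)).trans (algebraMap_smul ℂ t _).symm,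
    fun A => LinearMap.trace_baseChange (A : V →ₗ[ℝ] V) ℂ⟩

/-- The purity lemma, without the assumption on zero. -/
theorem pur' (hg : ∀ A ∈ g, ∀ B ∈ g, A * B - B * A ∈ g) (s : Finset ℝ) (p : ℝ → V →L[ℝ] V)
    (hsum : ∑ a ∈ s, p a = 1) (horth : ∀ a b, p a * p b = if a = b then p a else 0)
    (hd : ∑ a ∈ s, a • p a ∈ g)
    (htr : ∀ A ∈ g, ∀ B ∈ g, tr ((∑ a ∈ s.filter (· < 0), p a) * (A * B - B * A)) = 0) :
    ∑ a ∈ s.filter (· < 0), p a ∈ cen g := by
  have h0 : ∑ a ∈ s.filter (· < 0), p a ∈ env g := sum_mem fun a _ =>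
    Purx.idem_mem ((env g).toSubalgebra one_mem_env fun _ _ => mul_mem_env)
      Function.injective_id hsum horth (le_env hd) a
  obtain ⟨φ, h1, h2⟩ := Purx.exists_cx (V := V)
  have h3 : ∀ A ∈ g, φ A ∈ Submodule.span ℂ (φ '' g) := fun A hA =>
    Submodule.subset_span ⟨A, hA, rfl⟩
  have h4 : ∀ U : Submodule ℂ _, (∀ A ∈ g, ∀ B ∈ g, φ (A * B - B * A) ∈ U) →
      ∀ A ∈ Submodule.span ℂ (φ '' g), ∀ B ∈ Submodule.span ℂ (φ '' g), A * B - B * A ∈ U := by
    intro U hU A hA B hB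
    have k1 : Submodule.span ℂ (φ '' g) ≤
        U.comap (LinearMap.mulRight ℂ B - LinearMap.mulLeft ℂ B) := Submodule.span_le.2 (by
      rintro _ ⟨A, hA, rfl⟩
      have k2 : Submodule.span ℂ (φ '' g) ≤
          U.comap (LinearMap.mulLeft ℂ (φ A) - LinearMap.mulRight ℂ (φ A)) :=
        Submodule.span_le.2 (by
          rintro _ ⟨B, hB, rfl⟩
          have k3 := hU A hA B hB
          rw [map_sub, map_mul, map_mul] at k3
          exact k3)
      exact k2 hB)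
    exact k1 hA
  have h5 := Purx.core (s := s) (p := fun a => φ (p a)) (h4 _ fun A hA B hB => h3 _ (hg A hA B hB))
    (by rw [← map_sum, hsum, map_one])
    (fun a b => by rw [← map_mul, horth, apply_ite φ, map_zero])
    (by simpa only [map_sum, h1] using h3 _ hd)
    (h4 (LinearMap.ker (LinearMap.trace ℂ _ ∘ₗ
      LinearMap.mulLeft ℂ (∑ a ∈ s.filter (· < 0), φ (p a)))) fun A hA B hB => by
        change LinearMap.trace ℂ _ (_ * _) = 0
        rw [← map_sum, ← map_mul, h2, htr A hA B hB, Complex.ofReal_zero])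
  have h6 : ∀ A ∈ env g, φ A ∈ Algebra.adjoin ℂ (Submodule.span ℂ (φ '' g) : Set _) :=
    env_le (S :=
      { carrier := {A | φ A ∈ Algebra.adjoin ℂ (Submodule.span ℂ (φ '' g) : Set _)}
        zero_mem' := by
          rw [Set.mem_ofPred_eq, map_zero]
          exact zero_mem _
        add_mem' := fun ha hb => by
          rw [Set.mem_ofPred_eq, map_add]
          exact Subalgebra.add_mem _ ha hb
        smul_mem' := fun c _ ha => by
          rw [Set.mem_ofPred_eq, h1]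
          exact Subalgebra.smul_mem _ ha _ })
      ((map_one φ).symm ▸ Subalgebra.one_mem _ : φ 1 ∈ Algebra.adjoin ℂ _)
      fun A hA B hB => ((map_mul φ A B).symm ▸
        Subalgebra.mul_mem _ (Algebra.subset_adjoin (h3 A hA)) hB : φ (A * B) ∈ Algebra.adjoin ℂ _)
  refine ⟨h0, fun A hA => ⟨sub_mem (mul_mem_env h0 hA) (mul_mem_env hA h0), fun B hB => ?_⟩⟩
  have h7 := (Purx.rd_swap (h5.2 _ (h6 A hA))).2 _ (h6 B hB)
  rwa [← map_sum, ← map_mul, ← map_mul, ← map_sub, ← map_mul, h2, Complex.ofReal_eq_zero] at h7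

/-- The purity lemma. -/
theorem pur (hg : ∀ A ∈ g, ∀ B ∈ g, A * B - B * A ∈ g) (s : Finset ℝ) (p : ℝ → V →L[ℝ] V)
    (hsum : ∑ a ∈ s, p a = 1) (horth : ∀ a b, p a * p b = if a = b then p a else 0)
    (_h0 : (0 : ℝ) ∉ s) (hd : ∑ a ∈ s, a • p a ∈ g)
    (htr : ∀ A ∈ g, ∀ B ∈ g, tr ((∑ a ∈ s.filter (· < 0), p a) * (A * B - B * A)) = 0) :
    ∑ a ∈ s.filter (· < 0), p a ∈ cen g := pur' hg s p hsum horth hd htr

end Vale.Agent.P207Z.Geo

end
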