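import Vale.Agent.P207Z.Geo.Defs
import Vale.Agent.P207Z.Geo.Pur

/-!
# P207: definitions for the formal geometry
-/

set_option linter.all false

open Set Filter Topology Metric MeasureTheory VectorField
open scoped ContDiff

noncomputable section

namespace Vale.Agent.P207Z

variable {Γ X B E V : Type} [Group Γ] [Countable Γ] [MetricSpace X] [ProperSpace X]
  [MulAction Γ X] [IsIsometricSMul Γ X] [MeasurableSpace X] [BorelSpace X]
  [TopologicalSpace B] [CompactSpace B] [T2Space B] [SecondCountableTopology B] [MulAction Γ B]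
  [ContinuousConstSMul Γ B] [MeasurableSpace B] [BorelSpace B]
  [NormedAddCommGroup E] [InnerProductSpace ℝ E] [FiniteDimensional ℝ E]
  [NormedAddCommGroup V] [NormedSpace ℝ V] [FiniteDimensional ℝ V]
  {S : Sys Γ X B E V}

/-- the span of the brackets -/
def brSpan {T : Bun S V} (H₁ H₂ : SSub T) (x : X) : Submodule ℝ V :=
  Submodule.span ℝ {v | ∃ Y₁ Y₂, H₁.IsSec 1 x Y₁ ∧ H₂.IsSec 1 x Y₂ ∧ v = lieBracket ℝ Y₁ Y₂ 0}

/-- the values of the sections of `H₁` whose brackets with the sections of `H₂` are in `H₃` -/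
def chr {T : Bun S V} (H₁ H₂ H₃ : SSub T) (x : X) : Submodule ℝ V :=
  Submodule.span ℝ {v | ∃ Y₁, H₁.IsSec 1 x Y₁ ∧ Y₁ 0 = v ∧
    ∀ Y₂, H₂.IsSec 1 x Y₂ → lieBracket ℝ Y₁ Y₂ 0 ∈ H₃.H x}

/-- the bundle of the endomorphisms of the tangent bundle -/
def IsEnd (𝔈 : Bun S (V →L[ℝ] V)) : Prop :=
  ∀ x y, ∀ q ∈ S.dom x y, ∀ A : V →L[ℝ] V, 𝔈.A x y q A =
    fderiv ℝ (S.τ x y) q ∘L A ∘L fderiv ℝ (S.τ y x) (S.τ x y q)

/-- the stabiliser in `gl V × ℝ`, projected to `gl V` -/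
def stab {m : ℕ} (F K : Submodule ℝ V) (W : Submodule ℝ (Fm m V × ℝ)) :
    Submodule ℝ (V →L[ℝ] V) :=
  Submodule.span ℝ {A | (∀ v ∈ F, A v ∈ F) ∧ (∀ v ∈ K, A v ∈ K) ∧
    ∃ t : ℝ, ∀ a ∈ W, drho m V (A, t) a ∈ W}

/-- the socle of `K / F` -/
def socle (R : Submodule ℝ (V →L[ℝ] V)) (F K : Submodule ℝ V) : Submodule ℝ V where
  carrier := {v | v ∈ K ∧ ∀ A ∈ R, A v ∈ F}
  add_mem' := fun ha hb => ⟨K.add_mem ha.1 hb.1, fun A hA => by
    rw [map_add]; exact F.add_mem (ha.2 A hA) (hb.2 A hA)⟩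
  zero_mem' := ⟨K.zero_mem, fun A _ => by rw [map_zero]; exact F.zero_mem⟩
  smul_mem' := fun c v hv => ⟨K.smul_mem c hv.1, fun A hA => by
    rw [map_smul]; exact F.smul_mem c (hv.2 A hA)⟩

/-- a grading of `V` whose negative part is the stable space -/
structure Grad (S : Sys Γ X B E V) (s : Finset ℝ) (p : ℝ → V →L[ℝ] V) : Prop where
  sum : ∑ a ∈ s, p a = 1
  orth : ∀ a b, p a * p b = if a = b then p a else 0
  zero : (0 : ℝ) ∉ s
  neg : ∑ a ∈ s.filter (· < 0), p a = S.eS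

end Vale.Agent.P207Z
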