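import Vale.Agent.P207Z.Geo.Grad.Pt
import Vale.Agent.P207Z.Geo.Br

/-!
# P207: the Oseledets grading lies in the stabiliser; vectors of the lowest weight
-/

set_option linter.all false

open Set Filter Topology Metric MeasureTheory VectorField

noncomputable section

namespace Vale.Agent.P207Z

open MET

variable {Γ X B E V Y : Type} [Group Γ] [Countable Γ] [MetricSpace X] [ProperSpace X]
  [MulAction Γ X] [IsIsometricSMul Γ X] [MeasurableSpace X] [BorelSpace X]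
  [TopologicalSpace B] [CompactSpace B] [T2Space B] [SecondCountableTopology B] [MulAction Γ B]
  [ContinuousConstSMul Γ B] [MeasurableSpace B] [BorelSpace B]
  [NormedAddCommGroup E] [InnerProductSpace ℝ E] [FiniteDimensional ℝ E]
  [NormedAddCommGroup V] [NormedSpace ℝ V] [FiniteDimensional ℝ V]
  [MeasurableSpace Y] [MulAction Γ Y]
  {S : Sys Γ X B E V} {T : Bun S V} {m : ℕ} {b : Module.Basis (Fin m) ℝ E} {M : Marg S b}
  {Φ : Bun S (Fm m V × ℝ)}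

theorem Sys.zero_dom_φ (S : Sys Γ X B E V) (t : ℝ) (x : X) : (0 : V) ∈ S.dom x (S.φ t x) :=
  Sys.zero_dom (S.pt_φ t x).symm

theorem Bun.fl_zero {F : Type} [NormedAddCommGroup F] [NormedSpace ℝ F] [FiniteDimensional ℝ F]
    (𝔉 : Bun S F) (x : X) : 𝔉.coc0.fl 0 x = 1 :=
  (𝔉.coc0.fl_zero x).trans (𝔉.self x 0 (mem_ball_self one_pos))

theorem IsTan.fl (hT : IsTan T) (t : ℝ) (x : X) :
    T.coc0.fl t x = fderiv ℝ (S.τ x (S.φ t x)) 0 := hT _ _ _ (S.zero_dom_φ t x)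

theorem IsTan.grad (hT : IsTan T) {x : X} (r : Reg S.φ T.coc0.fl x) :
    Grad S r.osel.fin.toFinset (prj S.φ T.coc0.fl x) :=
  T.coc0.fcoc.elim fun _ hc => Gr.grad_of_osel hc r.osel fun t => hT.fl t x

theorem Tim.f_φ (Tm : Tim S M) (t : ℝ) (x : X) :
    |M.f x (S.φ t x) 0| = Real.exp (Tm.h * t) := by
  have h1 := fun y => Tm.T_U y 0 (mem_ball_self one_pos)
  simp only [map_zero] at h1
  rw [Tm.f_abs _ _ _ (S.zero_dom_φ t x), Tm.dt_eq _ _ _ (S.zero_dom_φ t x),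
    Sys.τ_zero (S.pt_φ t x).symm, h1, h1, S.lv_φ, add_sub_cancel_left]

theorem del_frm (Tm : Tim S M) (hT : IsTan T) (hΦ : IsFrm M Φ) {x : X} (r : Reg S.φ T.coc0.fl x)
    (r' : Reg S.φ Φ.coc0.fl x) :
    del S.φ Φ.coc0.fl x = drho m V (del S.φ T.coc0.fl x, Tm.h) := by
  obtain ⟨L, hc⟩ := T.coc0.fcoc
  have h0 := fun t a => hΦ x _ 0 (S.zero_dom_φ t x) a
  refine Gr.del_form S.fact hc r r' (T.fl_zero x) (Φ.fl_zero x) (fun t a v => ?_)
    fun t a => (congrArg Prod.snd (h0 t a) :)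
  rw [show (Φ.coc0.fl t x a).1 = _ from congrArg Prod.fst (h0 t a), ← Tm.f_φ t x, ← abs_mul, hT.fl]
  refine congrArg (fun w => |M.f x (S.φ t x) 0 * a.1 w|) (funext fun i => ?_)
  exact DFunLike.congr_fun (Sys.fderiv_τ_inv (S.zero_dom_φ t x)) (v i)

theorem exists_grad (P : Prob S Y) (Tm : Tim S M) (hT : IsTan T) (hΦ : IsFrm M Φ) (F K : SSub T)
    (W : SSub Φ) : ∀ᵐ x ∂S.μ, ∃ s p, Grad S s p ∧
      ∑ a ∈ s, a • p a ∈ stab (F.H x) (K.H x) (W.H x) := by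
  filter_upwards [T.coc0.ae_reg P, Φ.coc0.ae_reg P, F.del_mem P, K.del_mem P, W.del_mem P]
    with x r r' h1 h2 h3
  refine ⟨_, _, hT.grad r, ?_⟩
  rw [← del_eq fun a ha => by simpa using ha]
  exact Submodule.subset_span ⟨h1, h2, Tm.h, del_frm Tm hT hΦ r r' ▸ h3⟩

/-- a vector of the lowest weight of `C / F` is characteristic -/
theorem levi (P : Prob S Y) (hT : IsTan T) {F C : SSub T} (hF : ∀ᵐ x ∂S.μ, F.H x ≤ S.Es)
    (hC : ∀ᵐ x ∂S.μ, C.H x = S.perp (F.H x)) (hb : Br0 F C C) :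
    ∀ᵐ x ∂S.μ, F.H x ≠ S.Es → ¬ chr C C C x ≤ F.H x := by
  obtain ⟨L, hc⟩ := T.coc0.fcoc
  have hFC : ∀ᵐ x ∂S.μ, F.H x ≤ C.H x :=
    (hF.and hC).mono fun x hx => hx.2 ▸ hx.1.trans (Gr.Es_le_perp hx.1)
  filter_upwards [T.coc0.ae_reg P, T.jet1.coc0.ae_reg P, hF, hC, hb, C.jet1.prj_mem P, C.jet1_H,
    C.exists_sec 1, C.sec_val 1, F.exists_sec 1, F.sec_incl C hFC 1, jet1_vert C]
    with x r r' h1 h2 h3 h4 h5 h6 h7 h8 h9 h10 hne hle
  obtain ⟨j, hj, hj1, hj2⟩ := Gr.levi_core (hT.grad r) (s' := r'.osel.fin.toFinset)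
    (p' := prj S.φ T.jet1.coc0.fl x) (β := brJ V) (J := C.jet1.H x)
    (fun j => by
      rw [r'.osel.sum_apply fun a ha => by simpa using ha, T.jet1.fl_zero]
      rfl)
    (fun a j => r'.osel.inter_eq S.fact hc r.osel
      (A := fun _ => ContinuousLinearMap.fst ℝ V (V →L[ℝ] V)) (fun _ _ => rfl)
      (Rec.of_bdd fun _ => le_rfl) a (by rw [T.jet1.fl_zero]; rfl))
    (fun a b c h => r'.osel.bilin S.fact hc r'.osel r.osel (B := fun _ => brJ V)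
      (fun n u v => (hT.brJ_nat (S.zero_dom_φ n x) u v).symm) (Rec.of_bdd fun _ => le_rfl) h)
    (fun a b h => r.osel.form S.fact r.osel (B := fun _ => S.om)
      (fun n u v => by rw [hT.fl, Sys.om_τ (S.zero_dom_φ n x)]) (Rec.of_bdd fun _ => le_rfl) h)
    h1 hne h4
    (fun j hj => by
      obtain ⟨s, hs, rfl⟩ := (h5 j).1 hj
      exact h2 ▸ h7 s hs)
    (fun v hv => by
      obtain ⟨s, hs, rfl⟩ := h6 v (h2 ▸ hv)
      exact ⟨_, (h5 _).2 ⟨s, hs, rfl⟩, rfl⟩)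
    (fun j hj j' hj' e => by
      obtain ⟨s, hs, rfl⟩ := (h5 j).1 hj
      obtain ⟨s', hs', e'⟩ := h8 _ e
      have h11 := (C.jet1.H x).sub_mem hj' ((h5 _).2 ⟨s', h9 s' hs', rfl⟩)
      rw [Prod.sub_def, e', sub_self] at h11
      have h12 := (C.H x).sub_mem (h10 _ h11 (s 0)) (h3 s' s hs' hs)
      rwa [← brJ_jet, brJ_apply, ContinuousLinearMap.sub_apply, e', sub_sub, add_sub_cancel,
        h2] at h12)
  obtain ⟨s, hs, rfl⟩ := (h5 j).1 hj
  exact hj1 (hle (Submodule.subset_span ⟨s, hs, rfl, fun s' hs' =>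
    h2 ▸ hj2 _ ((h5 _).2 ⟨s', hs', rfl⟩)⟩))

end Vale.Agent.P207Z
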