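import Vale.Agent.P207Z.Geo.Sec
import Vale.Agent.P207Z.Geo.Idem.Eqn
import Vale.Agent.P207Z.Geo.Idem.Unif
import Vale.Agent.P207Z.OpsB
import Vale.Agent.P207Z.OpsC

/-!
# P207 GEO: the central idempotent
-/

set_option linter.all false

open Set Filter Topology Metric MeasureTheory VectorField
open scoped ContDiff

noncomputable section

namespace Vale.Agent.P207Z

variable {Γ X B E V Y : Type} [Group Γ] [Countable Γ] [MetricSpace X] [ProperSpace X]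
  [MulAction Γ X] [IsIsometricSMul Γ X] [MeasurableSpace X] [BorelSpace X]
  [TopologicalSpace B] [CompactSpace B] [T2Space B] [SecondCountableTopology B] [MulAction Γ B]
  [ContinuousConstSMul Γ B] [MeasurableSpace B] [BorelSpace B]
  [NormedAddCommGroup E] [InnerProductSpace ℝ E] [FiniteDimensional ℝ E]
  [NormedAddCommGroup V] [NormedSpace ℝ V] [FiniteDimensional ℝ V]
  [MeasurableSpace Y] [MulAction Γ Y]
  {S : Sys Γ X B E V} {T : Bun S V} {𝔈 : Bun S (V →L[ℝ] V)}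

namespace IdG

variable {F Z : SSub T} {𝔷 : SSub 𝔈} {k n : ℕ} {x y : X} {O : Set (V →L[ℝ] V)}
  {Yf σf : (V →L[ℝ] V) → V →L[ℝ] V} {PF PZ : V → V →L[ℝ] V}
  {Pz : V → (V →L[ℝ] V) →L[ℝ] V →L[ℝ] V}

theorem end_A (hT : IsTan T) (h𝔈 : IsEnd 𝔈) {q : V} (hq : q ∈ S.dom x y) (A : V →L[ℝ] V) :
    𝔈.A x y q A = T.A x y q * A * T.A y x (S.τ x y q) := by
  rw [h𝔈 x y q hq, hT x y q hq, hT y x _ (Sys.τ_dom hq)]
  rfl

theorem idl_of_sec {F' : SSub T} {A : V → V →L[ℝ] V} (h : (F'.hom F).IsSec k y A) :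
    Idl k (F.J k y) (F'.J k y) A :=
  h.2.congr (Eventually.of_forall fun q => (sub_sub_cancel _ _).symm)

/-- what is needed at a point -/
structure Good (F Z : SSub T) (𝔷 : SSub 𝔈) (k : ℕ) (y : X) : Prop where
  pF : (∃ n, Prj k n (F.J k y)) ∧ (F.J k y 0).range = F.H y
  pZ : (∃ n, Prj k n (Z.J k y)) ∧ (Z.J k y 0).range = Z.H y
  pz : (∃ n, Prj k n (𝔷.J k y)) ∧ (𝔷.J k y 0).range = 𝔷.H y
  le : F.H y ≤ Z.H y
  mem : S.eS ∈ 𝔷.H y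
  inv : (∀ v ∈ F.H y, S.eS v ∈ F.H y) ∧ ∀ v ∈ Z.H y, S.eS v ∈ Z.H y
  pres : ∀ A, 𝔷.IsSec k y A → Idl k (F.J k y) (F.J k y) A ∧ Idl k (Z.J k y) (Z.J k y) A
  comm : ∀ A A', 𝔷.IsSec k y A → 𝔷.IsSec k y A' →
    Idl k (F.J k y) (Z.J k y) fun q => A q * A' q - A' q * A q

theorem ae_good (P : Prob S Y) (hT : IsTan T) (h𝔈 : IsEnd 𝔈)
    (hFZ : ∀ᵐ x ∂S.μ, F.H x ≤ Z.H x)
    (hinv : ∀ᵐ x ∂S.μ, ∀ A ∈ 𝔷.H x, (∀ v ∈ F.H x, A v ∈ F.H x) ∧ ∀ v ∈ Z.H x, A v ∈ Z.H x)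
    (hcomm : ∀ᵐ x ∂S.μ, ∀ A ∈ 𝔷.H x, ∀ A' ∈ 𝔷.H x, ∀ v ∈ Z.H x, (A * A' - A' * A) v ∈ F.H x)
    (he : ∀ᵐ x ∂S.μ, S.eS ∈ 𝔷.H x) (k : ℕ) : ∀ᵐ x ∂S.μ, Good F Z 𝔷 k x := by
  have hL : ∀ x y, ∀ q ∈ S.dom x y, ∀ A, ContinuousLinearMap.id ℝ (V →L[ℝ] V) (𝔈.A x y q A) =
      (T.hom T).A x y q (ContinuousLinearMap.id ℝ (V →L[ℝ] V) A) :=
    fun x y q hq A => end_A hT h𝔈 hq A
  have h1 := sec_lin P _ hL (W₁ := 𝔷) (W₂ := F.hom F) (hinv.mono fun x hx A hA => (hx A hA).1)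
  have h2 := sec_lin P _ hL (W₁ := 𝔷) (W₂ := Z.hom Z) (hinv.mono fun x hx A hA => (hx A hA).2)
  have h3 := sec_bilin P (𝔉 := 𝔈) (𝔉₂ := 𝔈) (𝔉₃ := T.hom T)
    (ContinuousLinearMap.mul ℝ (V →L[ℝ] V) - (ContinuousLinearMap.mul ℝ (V →L[ℝ] V)).flip)
    (fun x y q hq A A' => by
      have a1 : ∀ z, T.A y x (S.τ x y q) * (T.A x y q * z) = z := fun z => by
        rw [← mul_assoc, T.inv hq, one_mul]
      show 𝔈.A x y q A * 𝔈.A x y q A' - 𝔈.A x y q A' * 𝔈.A x y q A =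
        T.A x y q * ((A * A' - A' * A) * T.A y x (S.τ x y q))
      simp only [end_A hT h𝔈 hq, mul_assoc, a1, mul_sub, sub_mul])
    (W₁ := 𝔷) (W₂ := 𝔷) (W₃ := Z.hom F) hcomm
  filter_upwards [F.reg k, Z.reg k, 𝔷.reg k, hFZ, he, hinv, h1, h2, h3]
    with x a1 a2 a3 a4 a5 a6 a7 a8 a9
  exact ⟨a1, a2, a3, a4, a5, a6 _ a5,
    fun A hA => ⟨idl_of_sec (a7 k A hA), idl_of_sec (a8 k A hA)⟩,
    fun A A' hA hA' => idl_of_sec (a9 k A A' hA hA')⟩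

theorem step (hT : IsTan T) (h𝔈 : IsEnd 𝔈) (hs : Sgn S.eS O Yf σf) (pF : Prj k n PF)
    (pZ : Prj k n PZ) (pz : Prj k n Pz) (hy : S.pt y ∈ S.c x '' ball 0 (rad n))
    (G : Good F Z 𝔷 k y) (eF : Eqv k (T.pull y x (cmp PF)) (cmp (F.J k y)))
    (eZ : Eqv k (T.pull y x (cmp PZ)) (cmp (Z.J k y)))
    (ez : Eqv k (𝔈.pull y x (cmp Pz)) (cmp (𝔷.J k y))) {δ : ℝ} (hδ : δ * (n + 1) < 1)
    (B0 : Pz (S.τ y x 0) S.eS ∈ O) (n1 : ‖Yf (Pz (S.τ y x 0) S.eS) - 1‖ ≤ δ)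
    (n2 : ‖(prj S x y (S.τ y x 0) + prj S x y (S.τ y x 0) - 1) *
      (Pz (S.τ y x 0) S.eS + Pz (S.τ y x 0) S.eS - 1) - 1‖ ≤ δ) :
    Eqv k (T.pull y x fun q => Phi S.eS σf (PF q, PZ q, Pz q))
      fun q => Phi S.eS σf (F.J k y q, Z.J k y q, 𝔷.J k y q) := by
  obtain ⟨h0, hq⟩ := Sys.near_pt hy
  obtain ⟨⟨nF, jF⟩, -⟩ := G.pF
  obtain ⟨⟨nZ, jZ⟩, -⟩ := G.pZ
  obtain ⟨⟨nz, jz⟩, rz⟩ := G.pz
  have cτ := Sys.continuousAt_τ h0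
  have dτ : ContDiffAt ℝ k (S.τ y x) 0 := (Sys.contDiffAt_τ h0).of_le (by exact_mod_cast le_top)
  have dg : ContDiffAt ℝ k (T.A y x) 0 := (T.contDiffAt h0).of_le (by exact_mod_cast le_top)
  have dg' : ContDiffAt ℝ k (fun q => T.A x y (S.τ y x q)) 0 :=
    ContDiffAt.comp (f := S.τ y x) 0
      ((T.contDiffAt (Sys.τ_dom h0)).of_le (by exact_mod_cast le_top)) dτ
  have dB : ContDiffAt ℝ k (fun q => Pz (S.τ y x q) S.eS) 0 :=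
    (ContDiffAt.comp (f := S.τ y x) 0 (pz.ckb.contDiffAt hq) dτ).clm_apply contDiffAt_const
  have dC : ContDiffAt ℝ k (fun q => 𝔷.J k y q S.eS) 0 :=
    (jz.ckb.contDiffAt (rad_mem nz)).clm_apply contDiffAt_const
  have sC : 𝔷.IsSec k y fun q => 𝔷.J k y q S.eS :=
    ⟨dC, Flat.zero.congr (jz.idem0.mono fun q h => SecAux.cmp_idem h _)⟩
  have eg : ∀ᶠ q in 𝓝 (0 : V), T.A y x q * T.A x y (S.τ y x q) = 1 ∧
      T.A x y (S.τ y x q) * T.A y x q = 1 :=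
    mem_of_superset (Sys.dom_nhds h0) fun q h => ⟨T.inv' h, T.inv h⟩
  have sB : 𝔷.IsSec k y fun q => T.A x y (S.τ y x q) * Pz (S.τ y x q) S.eS * T.A y x q := by
    refine ⟨(dg'.mul dB).mul dg, ez.2.flat_apply le_rfl ((dg'.mul dB).mul dg).continuousAt
      (Flat.zero.congr ?_)⟩
    filter_upwards [Sys.dom_nhds h0, eg, cτ.eventually (pz.ev_idem hq)] with q a1 a2 a3
    rw [Bun.pull, ContinuousLinearMap.comp_apply, end_A hT h𝔈 a1, mul_assoc, mul_assoc, a2.1,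
      mul_one, ← mul_assoc, a2.1, one_mul]
    exact SecAux.cmp_idem a3 _
  have nP : ∀ {P : V → V →L[ℝ] V}, Prj k n P →
      ‖P (S.τ y x 0)‖ ≤ n + 1 ∧ ‖1 - P (S.τ y x 0)‖ ≤ n + 1 := fun hP => by
    have a1 := hP.ckb.norm_le hq
    have a2 : ‖(1 : V →L[ℝ] V)‖ ≤ 1 := ContinuousLinearMap.norm_id_le
    exact ⟨by linarith, (norm_sub_le _ _).trans (by linarith)⟩
  have e2 : T.A y x 0 * (S.eS + S.eS - 1) * T.A x y (S.τ y x 0) =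
      prj S x y (S.τ y x 0) + prj S x y (S.τ y x 0) - 1 := by
    rw [mul_sub, sub_mul, mul_one, T.inv' h0, mul_add, add_mul, prj, hT y x 0 h0,
      hT x y _ (Sys.τ_dom h0)]
  exact local_eqv (P := fun q => PF (S.τ y x q)) (Q := fun q => PZ (S.τ y x q)) hs
    (ContinuousAt.comp (f := S.τ y x) (pF.ckb.continuousAt hq) cτ)
    (ContinuousAt.comp (f := S.τ y x) (pZ.ckb.continuousAt hq) cτ) jF.cont0 jZ.cont0
    dB.continuousAt dC.continuousAt dg.continuousAt dg'.continuousAt eg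
    (cτ.eventually (pF.ev_idem hq)) (cτ.eventually (pZ.ev_idem hq)) jF.idem0 jZ.idem0 eF eZ
    (G.pres _ sB).1 (G.pres _ sB).2 (G.pres _ sC).1 (G.pres _ sC).2 (G.comm _ _ sB sC)
    (fix_of_mem (jz.idem 0 (rad_mem nz)) rz G.mem) B0 n1 (e2 ▸ n2) (nP pF).1 (nP pF).2 (nP pZ).1
    (nP pZ).2 hδ

theorem ext_main (hT : IsTan T) (h𝔈 : IsEnd 𝔈) (hs : Sgn S.eS O Yf σf) (F Z : SSub T)
    (𝔷 : SSub 𝔈) (k n : ℕ) : ∃ n' ≥ n, ∀ x (PF PZ : V → V →L[ℝ] V)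
      (Pz : V → (V →L[ℝ] V) →L[ℝ] V →L[ℝ] V), Prj (k + 1) n PF → Prj (k + 1) n PZ →
      Prj (k + 1) n Pz → Good F Z 𝔷 (k + 1) x → (PF 0).range = F.H x → (PZ 0).range = Z.H x →
      (Pz 0).range = 𝔷.H x → ∃ M : V → V →L[ℝ] V × V, CkB k n' M ∧
        (M 0).ker = F.H x ⊔ (Z.H x).map (S.eS : V →ₗ[ℝ] V) ∧
        (∀ v, infDist v (F.H x ⊔ (Z.H x).map (S.eS : V →ₗ[ℝ] V) : Submodule ℝ V) ≤
          n' * ‖M 0 v‖) ∧
        ∀ y, S.pt y ∈ S.c x '' ball 0 (rad n') → Good F Z 𝔷 (k + 1) y →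
          Eqv (k + 1) (T.pull y x (cmp PF)) (cmp (F.J (k + 1) y)) →
          Eqv (k + 1) (T.pull y x (cmp PZ)) (cmp (Z.J (k + 1) y)) →
          Eqv (k + 1) (𝔈.pull y x (cmp Pz)) (cmp (𝔷.J (k + 1) y)) →
          Eqv k (T.pull y x M) fun q =>
            Phi S.eS σf (F.J (k + 1) y q, Z.J (k + 1) y q, 𝔷.J (k + 1) y q) := by
  have hn : (0 : ℝ) < (n : ℝ) + 2 := by positivity
  obtain ⟨ε, hε, h1⟩ := exists_eps hs (eS_idem S) (inv_pos.2 hn)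
  obtain ⟨r, hr, h2⟩ := unif_prj S hε
  obtain ⟨n₁, h3⟩ := exists_rad_le hr
  obtain ⟨n₂, h4, h5⟩ := ckB_Phi (V := V) hs hε k n
  refine ⟨max (max n₁ n₂) 2, by omega, fun x PF PZ Pz pF pZ pz G rF rZ rz => ?_⟩
  have e0 : Pz 0 S.eS = S.eS := fix_of_mem (pz.idem 0 (rad_mem n)) rz G.mem
  obtain ⟨h6, h7⟩ := h5 PF PZ Pz pF.ckb pZ.ckb pz.ckb e0
  have e1 : Phi S.eS σf (PF 0, PZ 0, Pz 0) = rr (PF 0) (PZ 0) (S.eS + S.eS - 1) := by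
    rw [Phi, e0, hs.σ0]
  refine ⟨_, h6.mono k.le_succ (by omega), ?_, fun v => ?_, fun y hy Gy eF eZ ez => ?_⟩
  · rw [e1]
    exact rr_ker (eS_idem S) (pF.idem 0 (rad_mem n)) (pZ.idem 0 (rad_mem n)) rF rZ G.le G.inv.1
      G.inv.2
  · rw [e1]
    exact (rr_gap rF rZ v).trans (mul_le_mul_of_nonneg_right
      (by exact_mod_cast le_max_right _ _) (norm_nonneg _))
  · obtain ⟨h0, hq⟩ := Sys.near_pt hy
    obtain ⟨a1, a2, a3⟩ := h1 _ _ (h2 x y _ ((mem_ball_zero_iff.1 hq).trans_le (h3 _ (by omega)))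
      (Sys.pt_eq_c h0)) (h7 _ (ball_subset_ball (rad_anti (by omega)) hq))
    refine (step hT h𝔈 hs pF pZ pz (image_mono (ball_subset_ball (rad_anti (by omega))) hy) Gy
      eF eZ ez ?_ a1 a2 a3).mono k.le_succ
    rw [inv_mul_lt_iff₀ hn]
    linarith

end IdG

open IdG

theorem idem (P : Prob S Y) (hT : IsTan T) (h𝔈 : IsEnd 𝔈) {F Z : SSub T} {𝔷 : SSub 𝔈}
    (hFZ : ∀ᵐ x ∂S.μ, F.H x ≤ Z.H x)
    (hinv : ∀ᵐ x ∂S.μ, ∀ A ∈ 𝔷.H x, (∀ v ∈ F.H x, A v ∈ F.H x) ∧ ∀ v ∈ Z.H x, A v ∈ Z.H x)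
    (hcomm : ∀ᵐ x ∂S.μ, ∀ A ∈ 𝔷.H x, ∀ A' ∈ 𝔷.H x, ∀ v ∈ Z.H x, (A * A' - A' * A) v ∈ F.H x)
    (he : ∀ᵐ x ∂S.μ, S.eS ∈ 𝔷.H x) :
    IsS T fun x => F.H x ⊔ (Z.H x).map (S.eS : V →ₗ[ℝ] V) := by
  obtain ⟨O, Yf, σf, hs⟩ := exists_sgn S.eS (eS_idem S)
  have hG := ae_good P hT h𝔈 hFZ hinv hcomm he
  have cd : ∀ {F' : Type} [NormedAddCommGroup F'] [NormedSpace ℝ F'] [FiniteDimensional ℝ F']
      {𝔉 : Bun S F'} (W : SSub 𝔉) (k : ℕ), ∀ᵐ x ∂S.μ, ContDiffAt ℝ k (W.J k x) 0 :=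
    fun W k => (W.reg k).mono fun x ⟨⟨n, h⟩, _⟩ => h.ckb.contDiffAt (rad_mem n)
  have hO : ∀ k : ℕ, ∀ᵐ x ∂S.μ, ContDiffAt ℝ k (fun q => (F.J k x q, Z.J k x q, 𝔷.J k x q)) 0 ∧
      (F.J k x 0, Z.J k x 0, 𝔷.J k x 0) ∈ Om S.eS O 1 := fun k => by
    filter_upwards [cd F k, cd Z k, cd 𝔷 k, hG k] with x a1 a2 a3 G
    obtain ⟨⟨n, j⟩, r⟩ := G.pz
    refine ⟨a1.prodMk (a2.prodMk a3), ?_⟩
    show 𝔷.J k x 0 S.eS ∈ O ∩ ball S.eS 1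
    rw [fix_of_mem (j.idem 0 (rad_mem n)) r G.mem]
    exact ⟨hs.mem, mem_ball_self one_pos⟩
  let 𝓔 : SEq T fun _ => V × V :=
    { H := fun x => F.H x ⊔ (Z.H x).map (S.eS : V →ₗ[ℝ] V)
      R := fun k x q => Phi S.eS σf (F.J (k + 1) x q, Z.J (k + 1) x q, 𝔷.J (k + 1) x q)
      H_smul := fun g x => by rw [F.H_smul, Z.H_smul]
      R_smul := fun k g x => by rw [F.J_smul, Z.J_smul, 𝔷.J_smul]
      meas := F.meas.sup (Z.meas.map aemeasurable_const)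
      measR := fun k => meas_jet_trunc k.le_succ (meas_jet_map (isOpen_Om hs 1)
        (contDiffOn_Phi hs 1) (meas_jet_prod (F.measJ _)
          (meas_jet_prod (Z.measJ _) (𝔷.measJ _) (cd Z _) (cd 𝔷 _)) (cd F _)
          (((cd Z _).and (cd 𝔷 _)).mono fun _ h => h.1.prodMk h.2)) (hO (k + 1)))
      reg := fun k => (hO (k + 1)).mono fun x h => ContDiffAt.comp (g := Phi S.eS σf) 0
        (((contDiffOn_Phi hs 1).contDiffAt ((isOpen_Om hs 1).mem_nhds h.2)).of_le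
          (by exact_mod_cast le_top)) (h.1.of_le (by exact_mod_cast k.le_succ))
      extU := fun k => by
        refine (((F.extU (k + 1)).and (Z.extU (k + 1)) (F.port_QU _).mono (Z.port_QU _).mono).and
          (𝔷.extU (k + 1)) (fun n n' x h a => ⟨(F.port_QU _).mono n n' x h a.1,
            (Z.port_QU _).mono n n' x h a.2⟩) (𝔷.port_QU _).mono).imp fun n => ?_
        obtain ⟨n', h1, h2⟩ := ext_main hT h𝔈 hs F Z 𝔷 k n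
        refine ⟨n', ?_⟩
        filter_upwards [F.valU (k := k + 1) (n := n), Z.valU (k := k + 1) (n := n),
          𝔷.valU (k := k + 1) (n := n), Sys.ae_pt (hG (k + 1)), Sys.ae_alongU (hG (k + 1))]
          with x v1 v2 v3 g1 g2 ⟨⟨⟨PF, pF, eF⟩, PZ, pZ, eZ⟩, Pz, pz, ez⟩
        obtain ⟨M, m1, m2, m3, m4⟩ := h2 x PF PZ Pz pF pZ pz (g1 x rfl) (v1 _ pF eF).1
          (v2 _ pZ eZ).1 (v3 _ pz ez).1
        exact ⟨M, m1, m2, m3, fun y hy => m4 y ⟨0, rad_mem _, (S.c_zero' x).trans hy.symm⟩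
          (g1 y hy) (eF.1 y hy) (eZ.1 y hy) (ez.1 y hy),
          (((g2 _).and eF.2).and (eZ.2.and ez.2)).mono (rad_anti h1) fun y _ hy a =>
            m4 y hy a.1.1 a.1.2 a.2.1 a.2.2⟩
      extS := fun k => by
        refine (((F.extS (k + 1)).and (Z.extS (k + 1)) (F.port_QS _).mono (Z.port_QS _).mono).and
          (𝔷.extS (k + 1)) (fun n n' x h a => ⟨(F.port_QS _).mono n n' x h a.1,
            (Z.port_QS _).mono n n' x h a.2⟩) (𝔷.port_QS _).mono).imp fun n => ?_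
        obtain ⟨n', h1, h2⟩ := ext_main hT h𝔈 hs F Z 𝔷 k n
        refine ⟨n', ?_⟩
        filter_upwards [F.valS (k := k + 1) (n := n), Z.valS (k := k + 1) (n := n),
          𝔷.valS (k := k + 1) (n := n), Sys.ae_pt (hG (k + 1)), Sys.ae_alongS (hG (k + 1))]
          with x v1 v2 v3 g1 g2 ⟨⟨⟨PF, pF, eF⟩, PZ, pZ, eZ⟩, Pz, pz, ez⟩
        obtain ⟨M, m1, m2, m3, m4⟩ := h2 x PF PZ Pz pF pZ pz (g1 x rfl) (v1 _ pF eF).1
          (v2 _ pZ eZ).1 (v3 _ pz ez).1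
        exact ⟨M, m1, m2, m3, fun y hy => m4 y ⟨0, rad_mem _, (S.c_zero' x).trans hy.symm⟩
          (g1 y hy) (eF.1 y hy) (eZ.1 y hy) (ez.1 y hy),
          (((g2 _).and eF.2).and (eZ.2.and ez.2)).mono (rad_anti h1) fun y _ hy a =>
            m4 y hy a.1.1 a.1.2 a.2.1 a.2.2⟩ }
  obtain ⟨W, hW, -⟩ := 𝓔.exists_ssub P
  exact ⟨W, Eventually.of_forall fun x => congrFun hW x⟩

end Vale.Agent.P207Z
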