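import Mathlib

/-!
Smooth spectral projectors near an idempotent, and smooth projectors on kernels and images of
constant rank.
-/

open Filter Topology Module
open scoped ContDiff

noncomputable section

namespace Vale.Agent.P207Z.Geo

section alg

variable {A : Type*} [NormedRing A] [NormedAlgebra ℝ A]

/-- The operator `D ↦ D Y + Y D`. -/
def syl : A →L[ℝ] A →L[ℝ] A := (ContinuousLinearMap.mul ℝ A).flip + ContinuousLinearMap.mul ℝ A

theorem syl_apply (Y D : A) : syl Y D = D * Y + Y * D := rfl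

theorem syl_one : IsUnit (syl (1 : A)) := by
  have h : syl (1 : A) = algebraMap ℝ (A →L[ℝ] A) 2 := by
    ext D
    rw [syl_apply, mul_one, one_mul, Algebra.algebraMap_eq_smul_one,
      smul_apply, one_apply_eq_self, two_smul]
  rw [h]
  exact (IsUnit.mk0 (2 : ℝ) two_ne_zero).map _

theorem contDiffAt_inv [CompleteSpace A] {T : Type*} [NormedAddCommGroup T] [NormedSpace ℝ T]
    {n : WithTop ℕ∞} {g : T → A} {z : T} (hg : ContDiffAt ℝ n g z) (h : IsUnit (g z)) :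
    ContDiffAt ℝ n (fun z => Ring.inverse (g z)) z := by
  obtain ⟨u, hu⟩ := h
  have h1 := contDiffAt_ringInverse ℝ (n := n) u
  rw [hu] at h1
  exact h1.comp z hg

omit [NormedAlgebra ℝ A] in
theorem eventually_isUnit [CompleteSpace A] {T : Type*} [TopologicalSpace T] {g : T → A} {z : T}
    (hg : ContinuousAt g z) (h : IsUnit (g z)) : ∀ᶠ y in 𝓝 z, IsUnit (g y) :=
  hg.eventually (Units.isOpen.mem_nhds h)

/-- A smooth square root near one. -/
theorem exists_sqrt [CompleteSpace A] : ∃ R : A → A, R 1 = 1 ∧ ∀ᶠ Z in 𝓝 (1 : A),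
    ContDiffAt ℝ ∞ R Z ∧ R Z * R Z = Z ∧ IsUnit (R Z) ∧ IsUnit (R Z + 1) ∧
      IsUnit (syl (R Z)) := by
  have h1 : ContDiffAt ℝ ω (fun Y : A => Y * Y) 1 := contDiffAt_id.mul contDiffAt_id
  have h2 : HasFDerivAt (fun Y : A => Y * Y)
      (ContinuousLinearEquiv.unitsEquiv ℝ A syl_one.unit : A →L[ℝ] A) 1 := by
    refine ((hasFDerivAt_id (1 : A)).mul' (hasFDerivAt_id 1)).congr_fderiv ?_
    ext D
    simp [syl_apply]
  have h3 := h1.to_localInverse h2 (by simp)
  have h4 := h1.localInverse_apply_image h2 (by simp)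
  have h5 := (h1.hasStrictFDerivAt' h2 (by simp)).eventually_right_inverse
  simp only [mul_one] at h3 h4 h5
  refine ⟨_, h4, (h3.eventually (by simp)).and (h5.and ((eventually_isUnit h3.continuousAt ?_).and
    ((eventually_isUnit (h3.continuousAt.add continuousAt_const) ?_).and
      (eventually_isUnit (syl.continuous.continuousAt.comp h3.continuousAt) ?_)))) |>.mono
        fun Z hZ => ⟨hZ.1.of_le le_top, hZ.2⟩⟩
  · rw [h4]
    exact isUnit_one
  · rw [Pi.add_apply, h4, ← two_smul ℝ, ← Algebra.algebraMap_eq_smul_one]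
    exact (IsUnit.mk0 (2 : ℝ) two_ne_zero).map _
  · rw [Function.comp_apply, h4]
    exact syl_one

theorem comm_sqrt {Y : A} (h : IsUnit (syl Y)) (X : A) :
    X * Y - Y * X = Ring.inverse (syl Y) (X * (Y * Y) - Y * Y * X) := by
  have h1 : X * (Y * Y) - Y * Y * X = syl Y (X * Y - Y * X) := by
    rw [syl_apply]
    noncomm_ring
  rw [h1, ← mul_apply_eq_comp, Ring.inverse_mul_cancel _ h]
  rfl

/-- The smooth spectral projector near an idempotent. -/
theorem exists_sp' [CompleteSpace A] (e0 : A) (he : e0 * e0 = e0) :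
    ∃ (O : Set A) (Sp : A → A) (Ps : A → A →L[ℝ] A), IsOpen O ∧ e0 ∈ O ∧ ContDiffOn ℝ ∞ Sp O ∧
      ContDiffOn ℝ ∞ Ps O ∧ (∀ B ∈ O, Sp B * Sp B = Sp B) ∧ (∀ B ∈ O, B * B = B → Sp B = B) ∧
      (∀ B ∈ O, ∀ X, X * Sp B - Sp B * X = Ps B (X * B - B * X)) ∧
      (∀ B ∈ O, ∀ P, P * B = B → P * Sp B = Sp B) ∧ ∀ B ∈ O, ∀ P, B * P = B → Sp B * P = Sp B := by
  obtain ⟨R, hR1, hR⟩ := exists_sqrt (A := A)
  obtain ⟨T, hT⟩ : ∃ T : A → A, ∀ B, T B = B + B - 1 := ⟨_, fun _ => rfl⟩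
  have hTs : ContDiff ℝ ∞ T := by
    rw [funext hT]
    fun_prop
  have hid : ∀ B, B * B = B → T B * T B = 1 := fun B hB => by
    simp only [hT, sub_mul, mul_sub, add_mul, mul_add, hB, mul_one, one_mul]
    abel
  have hc : Tendsto (fun B => T B * T B) (𝓝 e0) (𝓝 1) := by
    rw [← hid e0 he]
    exact (hTs.continuous.mul hTs.continuous).continuousAt
  obtain ⟨O, hO, hOo, hO0⟩ := eventually_nhds_iff.1 (hc.eventually hR)
  have hY : ∀ B ∈ O, ContDiffAt ℝ ∞ (fun B => R (T B * T B)) B := fun B hB =>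
    (hO B hB).1.comp B (hTs.mul hTs).contDiffAt
  have hI : ∀ B ∈ O, ContDiffAt ℝ ∞ (fun B => Ring.inverse (R (T B * T B))) B := fun B hB =>
    contDiffAt_inv (hY B hB) (hO B hB).2.2.1
  have hm : ∀ {g : A → A} {B : A}, ContDiffAt ℝ ∞ g B →
      ContDiffAt ℝ ∞ (fun B => ContinuousLinearMap.mul ℝ A (g B)) B := fun h =>
    (ContinuousLinearMap.mul ℝ A).contDiff.contDiffAt.comp _ h
  have hm' : ∀ {g : A → A} {B : A}, ContDiffAt ℝ ∞ g B →
      ContDiffAt ℝ ∞ (fun B => (ContinuousLinearMap.mul ℝ A).flip (g B)) B := fun h =>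
    (ContinuousLinearMap.mul ℝ A).flip.contDiff.contDiffAt.comp _ h
  have hs : ∀ {g : A → A} {B : A}, ContDiffAt ℝ ∞ g B →
      ContDiffAt ℝ ∞ (fun B => syl (g B)) B := fun h => (syl (A := A)).contDiff.contDiffAt.comp _ h
  refine ⟨O, fun B => (2 : ℝ)⁻¹ • (1 + T B * Ring.inverse (R (T B * T B))),
    fun B => (ContinuousLinearMap.mul ℝ A).flip (Ring.inverse (R (T B * T B))) *
      (1 - ContinuousLinearMap.mul ℝ A (T B * Ring.inverse (R (T B * T B))) *
        Ring.inverse (syl (R (T B * T B))) * syl (T B)), hOo, hO0, fun B hB => ?_, fun B hB => ?_,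
    fun B hB => ?_, fun B hB h => ?_, fun B hB X => ?_, fun B hB P h => ?_, fun B hB P h => ?_⟩
  · exact ((contDiffAt_const.add (hTs.contDiffAt.mul (hI B hB))).const_smul _).contDiffWithinAt
  · have k1 := hm' (hI B hB)
    have k2 := hm (hTs.contDiffAt.mul (hI B hB))
    have k3 := contDiffAt_inv (hs (hY B hB)) (hO B hB).2.2.2.2
    have k4 := hs (hTs.contDiffAt (x := B))
    exact (k1.mul (contDiffAt_const.sub ((k2.mul k3).mul k4))).contDiffWithinAt
  · obtain ⟨-, h1, h2, -, h3⟩ := hO B hB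
    have h4 := comm_sqrt h3 (T B)
    rw [h1, mul_assoc, sub_self, map_zero, sub_eq_zero] at h4
    beta_reduce
    generalize R (T B * T B) = Y at h1 h2 h4 ⊢
    have h5 := Ring.mul_inverse_cancel Y h2
    have h6 := Ring.inverse_mul_cancel Y h2
    generalize Ring.inverse Y = W at h5 h6 ⊢
    have h7 : W * T B = T B * W := by
      calc W * T B = W * (T B * Y) * W := by rw [mul_assoc, mul_assoc, h5, mul_one]
        _ = T B * W := by rw [h4, ← mul_assoc, h6, one_mul]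
    have h8 : T B * W * (T B * W) = 1 := by
      calc T B * W * (T B * W) = T B * (W * T B) * W := by noncomm_ring
        _ = Y * (Y * W) * W := by rw [h7, ← mul_assoc, ← h1, mul_assoc Y]
        _ = 1 := by rw [h5, mul_one, h5]
    rw [smul_mul_smul_comm, add_mul, mul_add, mul_add, h8, one_mul, one_mul, mul_one]
    module
  · change (2 : ℝ)⁻¹ • (1 + T B * Ring.inverse (R (T B * T B))) = B
    rw [hid B h, hR1, Ring.inverse_one, mul_one, hT]
    module
  · obtain ⟨-, h1, h2, -, h3⟩ := hO B hB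
    have h4 := comm_sqrt h3 X
    have h9 : X * (T B * T B) - T B * T B * X = (2 : ℝ) • syl (T B) (X * B - B * X) := by
      rw [syl_apply, hT, two_smul]
      noncomm_ring
    rw [h1, h9, map_smul] at h4
    change X * ((2 : ℝ)⁻¹ • (1 + T B * Ring.inverse (R (T B * T B)))) -
      ((2 : ℝ)⁻¹ • (1 + T B * Ring.inverse (R (T B * T B)))) * X =
        (X * B - B * X - T B * Ring.inverse (R (T B * T B)) *
          Ring.inverse (syl (R (T B * T B))) (syl (T B) (X * B - B * X))) *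
            Ring.inverse (R (T B * T B))
    generalize Ring.inverse (syl (R (T B * T B))) (syl (T B) (X * B - B * X)) = D at h4 ⊢
    generalize R (T B * T B) = Y at h1 h2 h4 ⊢
    have h5 := Ring.mul_inverse_cancel Y h2
    have h6 := Ring.inverse_mul_cancel Y h2
    generalize Ring.inverse Y = W at h5 h6 ⊢
    have h7 : W * X - X * W = (2 : ℝ) • (W * D * W) := by
      calc W * X - X * W = W * X * (Y * W) - W * Y * X * W := by rw [h5, h6, mul_one, one_mul]
        _ = W * (X * Y - Y * X) * W := by noncomm_ring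
        _ = (2 : ℝ) • (W * D * W) := by rw [h4, mul_smul_comm, smul_mul_assoc]
    have h8 : X * (1 + T B * W) - (1 + T B * W) * X =
        (2 : ℝ) • ((X * B - B * X) * W) - T B * (W * X - X * W) := by
      rw [hT, two_smul]
      noncomm_ring
    rw [mul_smul_comm, smul_mul_assoc, ← smul_sub, h8, h7, mul_smul_comm, ← smul_sub, smul_smul,
      inv_mul_cancel₀ two_ne_zero, one_smul]
    noncomm_ring
  · obtain ⟨-, h1, h2, h3, -⟩ := hO B hB
    change P * ((2 : ℝ)⁻¹ • (1 + T B * Ring.inverse (R (T B * T B)))) =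
      (2 : ℝ)⁻¹ • (1 + T B * Ring.inverse (R (T B * T B)))
    have h4 : (1 - P) * T B = -(1 - P) := by
      simp only [hT, sub_mul, mul_sub, mul_add, h, mul_one, one_mul]
      abel
    generalize R (T B * T B) = Y at h1 h2 h3 ⊢
    have h5 : (1 - P) * Y = 1 - P := by
      rw [← sub_eq_zero, ← h3.mul_left_eq_zero]
      calc ((1 - P) * Y - (1 - P)) * (Y + 1) = (1 - P) * (Y * Y) - (1 - P) := by noncomm_ring
        _ = 0 := by rw [h1, ← mul_assoc, h4, neg_mul, h4, neg_neg, sub_self]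
    have h6 : (1 - P) * Ring.inverse Y = 1 - P := by
      rw [← h5, mul_assoc, Ring.mul_inverse_cancel Y h2, mul_one, h5]
    have h7 : (1 - P) * (1 + T B * Ring.inverse Y) = 0 := by
      rw [mul_add, ← mul_assoc, h4, neg_mul, h6, mul_one, add_neg_cancel]
    rw [sub_mul, one_mul, sub_eq_zero] at h7
    rw [mul_smul_comm, ← h7]
  · obtain ⟨-, h1, h2, h3, -⟩ := hO B hB
    change ((2 : ℝ)⁻¹ • (1 + T B * Ring.inverse (R (T B * T B)))) * P =
      (2 : ℝ)⁻¹ • (1 + T B * Ring.inverse (R (T B * T B)))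
    have h4 : T B * (1 - P) = -(1 - P) := by
      simp only [hT, sub_mul, mul_sub, add_mul, h, mul_one, one_mul]
      abel
    generalize R (T B * T B) = Y at h1 h2 h3 ⊢
    have h5 : Y * (1 - P) = 1 - P := by
      rw [← sub_eq_zero, ← h3.mul_right_eq_zero]
      calc (Y + 1) * (Y * (1 - P) - (1 - P)) = (Y * Y) * (1 - P) - (1 - P) := by noncomm_ring
        _ = 0 := by rw [h1, mul_assoc, h4, mul_neg, h4, neg_neg, sub_self]
    have h6 : Ring.inverse Y * (1 - P) = 1 - P := by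
      rw [← h5, ← mul_assoc, Ring.inverse_mul_cancel Y h2, one_mul, h5]
    have h7 : (1 + T B * Ring.inverse Y) * (1 - P) = 0 := by
      rw [add_mul, mul_assoc, h6, h4, one_mul, add_neg_cancel]
    rw [mul_sub, mul_one, sub_eq_zero] at h7
    rw [smul_mul_assoc, ← h7]

/-- The smooth spectral projector near an idempotent. -/
theorem exists_sp [CompleteSpace A] (e0 : A) (he : e0 * e0 = e0) :
    ∃ (O : Set A) (Sp : A → A) (Ps : A → A →L[ℝ] A), IsOpen O ∧ e0 ∈ O ∧ ContDiffOn ℝ ∞ Sp O ∧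
      ContDiffOn ℝ ∞ Ps O ∧ (∀ B ∈ O, Sp B * Sp B = Sp B) ∧ (∀ B ∈ O, B * B = B → Sp B = B) ∧
      (∀ B ∈ O, ∀ X, X * Sp B - Sp B * X = Ps B (X * B - B * X)) ∧
      ∀ B ∈ O, ∀ P, P * P = P → P * B = B → B * P = B → P * Sp B = Sp B ∧ Sp B * P = Sp B := by
  obtain ⟨O, Sp, Ps, h1, h2, h3, h4, h5, h6, h7, h8, h9⟩ := exists_sp' e0 he
  exact ⟨O, Sp, Ps, h1, h2, h3, h4, h5, h6, h7, fun B hB P _ k1 k2 => ⟨h8 B hB P k1, h9 B hB P k2⟩⟩

omit [NormedAlgebra ℝ A] in
/-- Commuting idempotents which are close are equal. -/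
theorem idem_eq {e e' : A} (he : e * e = e) (he' : e' * e' = e') (hc : e * e' = e' * e)
    (h : ‖e - e'‖ < 1) : e = e' := by
  have h1 : (e - e') * (e - e') * (e - e') = e - e' := by
    have h2 : (e - e') * (e - e') = e + e' - (e * e' + e * e') := by
      rw [sub_mul, mul_sub, mul_sub, he, he', ← hc]
      abel
    have h3 : e * e' * e = e * e' := by rw [mul_assoc, ← hc, ← mul_assoc, he]
    have h4 : e * e' * e' = e * e' := by rw [mul_assoc, he']
    rw [h2]
    simp only [sub_mul, add_mul, mul_sub, he, he', h3, h4, ← hc]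
    abel
  have h2 := (norm_mul_le _ _).trans
    (mul_le_mul_of_nonneg_right (norm_mul_le (e - e') (e - e')) (norm_nonneg (e - e')))
  rw [h1] at h2
  have h3 := norm_nonneg (e - e')
  refine sub_eq_zero.1 (norm_eq_zero.1 (le_antisymm ?_ h3))
  by_contra h4
  have h5 := not_le.1 h4
  nlinarith [mul_pos h5 h5]

end alg

section proj

variable {T V W : Type*} [NormedAddCommGroup T] [NormedSpace ℝ T] [NormedAddCommGroup V]
  [NormedSpace ℝ V] [FiniteDimensional ℝ V] [NormedAddCommGroup W] [NormedSpace ℝ W]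
  [FiniteDimensional ℝ W] {n : WithTop ℕ∞}

/-- A generalised inverse. -/
theorem exists_ginv (Φ : V →L[ℝ] W) : ∃ Ψ : W →L[ℝ] V, ∀ v, Φ (Ψ (Φ v)) = Φ v := by
  obtain ⟨g, hg⟩ := (Φ : V →ₗ[ℝ] W).rangeRestrict.exists_rightInverse_of_surjective
    (LinearMap.range_rangeRestrict _)
  obtain ⟨q, hq⟩ := Φ.range.subtype.exists_leftInverse_of_injective (Submodule.ker_subtype _)
  refine ⟨LinearMap.toContinuousLinearMap (g ∘ₗ q), fun v => ?_⟩
  have h1 : q (Φ v) = ⟨Φ v, v, rfl⟩ := LinearMap.congr_fun hq ⟨Φ v, v, rfl⟩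
  have h2 := congrArg Subtype.val (LinearMap.congr_fun hg ⟨Φ v, v, rfl⟩)
  change Φ (g (q (Φ v))) = Φ v
  rw [h1]
  exact h2

/-- A smooth projector on the kernel. -/
theorem exists_proj_ker {Φ : T → V →L[ℝ] W} {z₀ : T} (hΦ : ∀ᶠ z in 𝓝 z₀, ContDiffAt ℝ n Φ z)
    (hr : ∀ᶠ z in 𝓝 z₀, finrank ℝ (Φ z).range ≤ finrank ℝ (Φ z₀).range) :
    ∃ P : T → V →L[ℝ] V, ∀ᶠ z in 𝓝 z₀,
      ContDiffAt ℝ n P z ∧ P z * P z = P z ∧ (P z).range = (Φ z).ker := by
  have := FiniteDimensional.complete ℝ V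
  obtain ⟨Ψ, hΨ⟩ := exists_ginv (Φ z₀)
  have hM : ∀ᶠ z in 𝓝 z₀, ContDiffAt ℝ n (fun z => 1 + Ψ ∘L (Φ z - Φ z₀)) z :=
    hΦ.mono fun z hz => contDiffAt_const.add (contDiffAt_const.clm_comp (hz.sub contDiffAt_const))
  have hU := eventually_isUnit hM.self_of_nhds.continuousAt (by simp)
  refine ⟨fun z => Ring.inverse (1 + Ψ ∘L (Φ z - Φ z₀)) * (1 - Ψ ∘L Φ z₀), ?_⟩
  filter_upwards [hM, hU, hr] with z h1 h2 h3
  have h4 : ∀ v, Φ z v = 0 →
      (Ring.inverse (1 + Ψ ∘L (Φ z - Φ z₀)) * (1 - Ψ ∘L Φ z₀)) v = v := fun v hv => by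
    have h5 : (1 - Ψ ∘L Φ z₀) v = (1 + Ψ ∘L (Φ z - Φ z₀)) v := by simp [hv, sub_eq_add_neg]
    rw [mul_apply_eq_comp, h5, ← mul_apply_eq_comp,
      Ring.inverse_mul_cancel _ h2]
    rfl
  have h5 : (Ring.inverse (1 + Ψ ∘L (Φ z - Φ z₀)) * (1 - Ψ ∘L Φ z₀)).range = (Φ z).ker := by
    refine Eq.symm (Submodule.eq_of_le_of_finrank_le (fun v hv => ⟨v, h4 v hv⟩) ?_)
    have h6 : (Ring.inverse (1 + Ψ ∘L (Φ z - Φ z₀)) * (1 - Ψ ∘L Φ z₀)).range ≤
        (Φ z₀).ker.map (Ring.inverse (1 + Ψ ∘L (Φ z - Φ z₀)) : V →L[ℝ] V).toLinearMap := by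
      rintro _ ⟨v, rfl⟩
      exact ⟨(1 - Ψ ∘L Φ z₀) v, by simp [hΨ], rfl⟩
    have h7 := (Submodule.finrank_mono h6).trans (Submodule.finrank_map_le _ _)
    have h8 := (Φ z : V →ₗ[ℝ] W).finrank_range_add_finrank_ker
    have h9 := (Φ z₀ : V →ₗ[ℝ] W).finrank_range_add_finrank_ker
    omega
  refine ⟨(contDiffAt_inv h1 h2).mul contDiffAt_const, ContinuousLinearMap.ext fun v => ?_, h5⟩
  exact h4 _ (h5.le ⟨v, rfl⟩)

/-- A smooth projector on the image. -/
theorem exists_proj_range {Φ : T → V →L[ℝ] W} {z₀ : T} (hΦ : ∀ᶠ z in 𝓝 z₀, ContDiffAt ℝ n Φ z)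
    (hr : ∀ᶠ z in 𝓝 z₀, finrank ℝ (Φ z).range ≤ finrank ℝ (Φ z₀).range) :
    ∃ P : T → W →L[ℝ] W, ∀ᶠ z in 𝓝 z₀,
      ContDiffAt ℝ n P z ∧ P z * P z = P z ∧ (P z).range = (Φ z).range := by
  have := FiniteDimensional.complete ℝ W
  obtain ⟨Ψ, hΨ⟩ := exists_ginv (Φ z₀)
  have hM : ∀ᶠ z in 𝓝 z₀, ContDiffAt ℝ n (fun z => 1 + (Φ z - Φ z₀) ∘L Ψ) z :=
    hΦ.mono fun z hz => contDiffAt_const.add ((hz.sub contDiffAt_const).clm_comp contDiffAt_const)
  have hU := eventually_isUnit hM.self_of_nhds.continuousAt (by simp)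
  refine ⟨fun z => (1 + (Φ z - Φ z₀) ∘L Ψ) * (Φ z₀ ∘L Ψ) * Ring.inverse (1 + (Φ z - Φ z₀) ∘L Ψ), ?_⟩
  filter_upwards [hM, hU, hr] with z h1 h2 h3
  have hq : (Φ z₀ ∘L Ψ) * (Φ z₀ ∘L Ψ) = Φ z₀ ∘L Ψ := ContinuousLinearMap.ext fun w => hΨ _
  have h4 := Ring.inverse_mul_cancel _ h2
  refine ⟨(h1.mul contDiffAt_const).mul (contDiffAt_inv h1 h2), ?_,
    Submodule.eq_of_le_of_finrank_le ?_ (h3.trans ?_)⟩
  · rw [← mul_assoc, ← mul_assoc, mul_assoc _ (Ring.inverse _), h4, mul_one, mul_assoc _ _ (_ ∘L _),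
      hq]
  · rintro _ ⟨w, rfl⟩
    refine ⟨Ψ (Φ z₀ (Ψ (Ring.inverse (1 + (Φ z - Φ z₀) ∘L Ψ) w))), ?_⟩
    simp [hΨ]
  · refine le_trans (Submodule.finrank_mono ?_) (Submodule.finrank_map_le
      (Ring.inverse (1 + (Φ z - Φ z₀) ∘L Ψ) : W →L[ℝ] W).toLinearMap _)
    rintro _ ⟨v, rfl⟩
    refine ⟨_, ⟨(1 + (Φ z - Φ z₀) ∘L Ψ) (Φ z₀ v), rfl⟩, ?_⟩
    change (Ring.inverse (1 + (Φ z - Φ z₀) ∘L Ψ) * ((1 + (Φ z - Φ z₀) ∘L Ψ) * (Φ z₀ ∘L Ψ) *
      Ring.inverse (1 + (Φ z - Φ z₀) ∘L Ψ)) * (1 + (Φ z - Φ z₀) ∘L Ψ)) (Φ z₀ v) = Φ z₀ v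
    rw [← mul_assoc, ← mul_assoc, h4, one_mul, mul_assoc, h4, mul_one]
    exact hΨ v

end proj

section orth

variable {T V W : Type*} [NormedAddCommGroup T] [NormedSpace ℝ T] [NormedAddCommGroup V]
  [InnerProductSpace ℝ V] [FiniteDimensional ℝ V] [NormedAddCommGroup W] [NormedSpace ℝ W]
  [FiniteDimensional ℝ W] {n : WithTop ℕ∞}

theorem isUnit_add_star {E : V →L[ℝ] V} (h : E * E = E) : IsUnit (E + star E - 1) := by
  have h0 : ∀ v, E (E v) = E v := fun v => DFunLike.congr_fun h v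
  rw [ContinuousLinearMap.isUnit_iff_bijective]
  have h1 : Function.Injective (E + star E - 1 : V →L[ℝ] V) := by
    rw [injective_iff_map_eq_zero]
    intro v hv
    have h2 : star E v = v - E v := by
      rw [eq_sub_iff_add_eq', ← sub_eq_zero]
      exact hv
    have h3 : inner ℝ (star E v) (star E v) = 0 := by
      rw [ContinuousLinearMap.star_eq_adjoint, ContinuousLinearMap.adjoint_inner_left,
        ← ContinuousLinearMap.star_eq_adjoint, h2, map_sub, h0, sub_self, inner_zero_right]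
    have h4 := inner_self_eq_zero.1 h3
    have h5 : v = E v := by rwa [h4, eq_comm, sub_eq_zero] at h2
    have h6 : inner ℝ v v = 0 := by
      nth_rewrite 2 [h5]
      rw [← ContinuousLinearMap.adjoint_inner_left, ← ContinuousLinearMap.star_eq_adjoint, h4,
        inner_zero_left]
    exact inner_self_eq_zero.1 h6
  exact ⟨h1, (LinearMap.injective_iff_surjective (f := (E + star E - 1).toLinearMap)).1 h1⟩

/-- The orthogonal projection on the range of an idempotent. -/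
theorem starProjection_range {E : V →L[ℝ] V} (h : E * E = E) :
    E.range.starProjection = E * Ring.inverse (E + star E - 1) := by
  have h1 : E.range.starProjection * E = E := ContinuousLinearMap.ext fun v =>
    Submodule.starProjection_eq_self_iff.2 ⟨v, rfl⟩
  have h2 : E * E.range.starProjection = E.range.starProjection :=
    ContinuousLinearMap.ext fun v => by
      obtain ⟨w, hw⟩ := E.range.starProjection_apply_mem v
      change E (E.range.starProjection v) = E.range.starProjection v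
      rw [← hw]
      exact DFunLike.congr_fun h w
  have h3 := congrArg star h2
  rw [star_mul, (isSelfAdjoint_starProjection E.range).star_eq] at h3
  rw [Ring.eq_mul_inverse_iff_mul_eq _ _ _ (isUnit_add_star h), mul_sub, mul_add, h1, h3, mul_one,
    add_sub_cancel_right]

theorem contDiffAt_starProjection {P : T → V →L[ℝ] V} {K : T → Submodule ℝ V} {z₀ : T}
    (h : ∀ᶠ z in 𝓝 z₀, ContDiffAt ℝ n P z ∧ P z * P z = P z ∧ (P z).range = K z) :
    ∀ᶠ z in 𝓝 z₀, ContDiffAt ℝ n (fun z => (K z).starProjection) z := by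
  filter_upwards [h.eventually_nhds] with z hz
  obtain ⟨h1, h2, -⟩ := hz.self_of_nhds
  have h3 : ContDiffAt ℝ n (fun z => star (P z)) z :=
    (starL' ℝ (A := V →L[ℝ] V)).contDiff.contDiffAt.comp z h1
  refine (h1.mul (contDiffAt_inv ((h1.add h3).sub contDiffAt_const)
    (isUnit_add_star h2))).congr_of_eventuallyEq (hz.mono fun y hy => ?_)
  simp only [← starProjection_range hy.2.1, hy.2.2]

/-- The orthogonal projection on a kernel of constant dimension is smooth. -/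
theorem contDiffAt_orth_ker {Φ : T → V →L[ℝ] W} {z₀ : T} (hΦ : ∀ᶠ z in 𝓝 z₀, ContDiffAt ℝ n Φ z)
    (hr : ∀ᶠ z in 𝓝 z₀, finrank ℝ (Φ z).range ≤ finrank ℝ (Φ z₀).range) :
    ∀ᶠ z in 𝓝 z₀, ContDiffAt ℝ n (fun z => (Φ z).ker.starProjection) z := by
  obtain ⟨P, hP⟩ := exists_proj_ker hΦ hr
  exact contDiffAt_starProjection hP

/-- The orthogonal projection on an image of constant dimension is smooth. -/
theorem contDiffAt_orth_range {Φ : T → W →L[ℝ] V} {z₀ : T}
    (hΦ : ∀ᶠ z in 𝓝 z₀, ContDiffAt ℝ n Φ z)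
    (hr : ∀ᶠ z in 𝓝 z₀, finrank ℝ (Φ z).range ≤ finrank ℝ (Φ z₀).range) :
    ∀ᶠ z in 𝓝 z₀, ContDiffAt ℝ n (fun z => (Φ z).range.starProjection) z := by
  obtain ⟨P, hP⟩ := exists_proj_range hΦ hr
  exact contDiffAt_starProjection hP

end orth

end Vale.Agent.P207Z.Geo

end
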