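import Vale.Agent.P207Z.Geo.LieW.Kap

/-!
# P207: the smallest hull is invariant under the Lie derivatives along `F`
-/

set_option linter.all false
set_option maxSynthPendingDepth 3

open Set Filter Topology Metric MeasureTheory VectorField
open scoped ContDiff

noncomputable section

namespace Vale.Agent.P207Z

variable {Γ X B E V Y : Type} [Group Γ] [Countable Γ] [MetricSpace X] [ProperSpace X]
  [MulAction Γ X] [IsIsometricSMul Γ X] [MeasurableSpace X] [BorelSpace X]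
  [TopologicalSpace B] [CompactSpace B] [T2Space B] [SecondCountableTopology B] [MulAction Γ B]
  [ContinuousConstSMul Γ B] [MeasurableSpace B] [BorelSpace B]
  [NormedAddCommGroup E] [InnerProductSpace ℝ E] [FiniteDimensional ℝ E]
  [NormedAddCommGroup V] [NormedSpace ℝ V] [FiniteDimensional ℝ V]
  [MeasurableSpace Y] [MulAction Γ Y]
  {S : Sys Γ X B E V} {T : Bun S V} {m : ℕ} {b : Module.Basis (Fin m) ℝ E} {M : Marg S b}
  {Φ : Bun S (Fm m V × ℝ)}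

namespace LieW

/-- the values of the sections whose Lie derivatives along `F` stay in `W` -/
theorem exists_core (P : Prob S Y) (Tm : Tim S M) (hT : IsTan T) (hΦ : IsFrm M Φ) (F : SSub T)
    (W : SSub Φ) : ∃ W' : SSub Φ, ∀ᵐ x ∂S.μ, ∀ a, a ∈ W'.H x ↔
      ∃ s, W.IsSec 1 x s ∧ s 0 = a ∧ ∀ Z, F.IsSec 1 x Z → lieF Z s ∈ W.H x := by
  obtain ⟨W', h⟩ := IsS.map P (mor_fst Φ).morV (IsS.inf P ⟨W.jet1, Eventually.of_forall fun _ => rfl⟩
    (IsS.comap P (morV_tl Tm hT hΦ) (IsS.hom ⟨F.jet1, Eventually.of_forall fun _ => rfl⟩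
      ⟨W, Eventually.of_forall fun _ => rfl⟩)))
  refine ⟨W', ?_⟩
  filter_upwards [h, W.jet1_H, F.jet1_H] with x hx h1 h2 a
  rw [hx]
  constructor
  · rintro ⟨j, ⟨hj, hj'⟩, rfl⟩
    obtain ⟨s, hs, rfl⟩ := (h1 j).1 hj
    exact ⟨s, hs, rfl, fun Z hZ => tl_zero (S := S) _ Z s ▸ hj' _ ((h2 _).2 ⟨Z, hZ, rfl⟩)⟩
  · rintro ⟨s, hs, rfl, h3⟩
    refine ⟨_, ⟨(h1 _).2 ⟨s, hs, rfl⟩, fun j hj => ?_⟩, rfl⟩
    obtain ⟨Z, hZ, rfl⟩ := (h2 j).1 hj
    exact (tl_zero (S := S) (Tm.h / Tm.κ) Z s).symm ▸ h3 Z hZ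

theorem lieF_sub {Z : V → V} {s s' : V → Fm m V × ℝ} (hs : DifferentiableAt ℝ s 0)
    (hs' : DifferentiableAt ℝ s' 0) (e : s' 0 = s 0) :
    lieF Z s = lieF Z s' + fderiv ℝ (fun q => s q + (-1 : ℝ) • s' q) 0 (Z 0) := by
  have d := (hs.hasFDerivAt.add (hs'.hasFDerivAt.const_smul (-1 : ℝ))).fderiv
  erw [d]
  rw [lieF, lieF, e, ContinuousLinearMap.add_apply, neg_one_smul, ContinuousLinearMap.neg_apply]
  abel

end LieW

open LieW in
theorem exists_lieInv (P : Prob S Y) (Tm : Tim S M) (hT : IsTan T) (hΦ : IsFrm M Φ) {F : SSub T}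
    (hF : ∀ᵐ x ∂S.μ, F.H x ≤ S.Es) {W₀ : SSub Φ} (h : Char M W₀) :
    ∃ W : SSub Φ, Char M W ∧ LieInv F W := by
  classical
  have hex : ∃ d, ∃ W : SSub Φ, Char M W ∧ ∀ᵐ x ∂S.μ, Module.finrank ℝ (W.H x) = d :=
    let ⟨d, hd⟩ := W₀.rank P
    ⟨d, W₀, h, hd⟩
  obtain ⟨W, hW, hd⟩ := Nat.find_spec hex
  obtain ⟨W', h'⟩ := exists_core P Tm hT hΦ F W
  have le : ∀ᵐ x ∂S.μ, W'.H x ≤ W.H x := by
    filter_upwards [h', sec_mem W] with x h1 h2 a ha
    obtain ⟨s, hs, rfl, -⟩ := (h1 a).1 ha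
    exact h2 1 s hs
  have hW' : Char M W' := by
    refine ⟨?_, by filter_upwards [le, hW.kill] with x h1 h2 a ha using h2 a (h1 ha)⟩
    filter_upwards [h', exists_sec_ref hΦ hW.mem, lieF_ref_zero P Tm hT hΦ hF, hF, sec_mem F]
      with x h1 ⟨s, hs, e⟩ h2 h3 h4
    refine (h1 _).2 ⟨s, hs, ?_, fun Z hZ => ?_⟩
    · simpa [ref_zero] using e.self_of_nhds
    · rw [lieF_congr (h3 (h4 1 Z hZ)) (hs.1.differentiableAt (by simp))
        ((contDiffAt_ref M x).differentiableAt (by simp)) e, h2 Z hZ]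
      exact zero_mem _
  obtain ⟨d', hd'⟩ := W'.rank P
  have h0 := Nat.find_min' hex ⟨W', hW', hd'⟩
  refine ⟨W, hW, ?_⟩
  filter_upwards [h', le, hd, hd', sec_mem W, sec_fderiv W] with x h1 h2 h3 h4 h5 h6 Z s hZ hs
  have e : W'.H x = W.H x := Submodule.eq_of_le_of_finrank_le h2 (by rw [h3, h4]; exact h0)
  obtain ⟨s', hs', e', h7⟩ := (h1 _).1 (e ▸ h5 1 s hs)
  rw [lieF_sub (hs.1.differentiableAt (by simp)) (hs'.1.differentiableAt (by simp)) e']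
  exact add_mem (h7 Z hZ)
    (h6 _ (hs.add (hs'.smul (contDiffAt_const (c := (-1 : ℝ))))) (by simp [e']) _)

end Vale.Agent.P207Z
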