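import Vale.Agent.P207Z.Geo.Defs2
import Vale.Agent.P207Z.Dyn

/-!
# P207: symplectic linear algebra and brackets at a point
-/

set_option linter.all false

open Set Filter Topology Metric MeasureTheory VectorField
open scoped ContDiff

noncomputable section

namespace Vale.Agent.P207Z

variable {Γ X B E V : Type} [Group Γ] [Countable Γ] [MetricSpace X] [ProperSpace X]
  [MulAction Γ X] [IsIsometricSMul Γ X] [MeasurableSpace X] [BorelSpace X]
  [TopologicalSpace B] [CompactSpace B] [T2Space B] [SecondCountableTopology B] [MulAction Γ B]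
  [ContinuousConstSMul Γ B] [MeasurableSpace B] [BorelSpace B]
  [NormedAddCommGroup E] [InnerProductSpace ℝ E] [FiniteDimensional ℝ E]
  [NormedAddCommGroup V] [NormedSpace ℝ V] [FiniteDimensional ℝ V]

namespace Sys

variable (S : Sys Γ X B E V)

theorem mem_perp {H : Submodule ℝ V} {v : V} : v ∈ S.perp H ↔ ∀ w ∈ H, S.om w v = 0 := Iff.rfl

theorem om_swap (v w : V) : S.om v w = -S.om w v := by
  rw [S.om_apply, S.om_apply, real_inner_comm (S.pU w), real_inner_comm (S.pS w)]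
  ring

theorem om_nd {v : V} (h : ∀ w, S.om w v = 0) : v = 0 := by
  have h1 := h (S.iS (S.pU v))
  have h2 := h (S.iU (S.pS v))
  rw [S.om_apply, S.pS_iS, S.pU_iS, inner_zero_left, sub_zero, inner_self_eq_zero] at h1
  rw [S.om_apply, S.pS_iU, S.pU_iU, inner_zero_left, zero_sub, neg_eq_zero,
    inner_self_eq_zero] at h2
  rw [← S.iS_add v, h1, h2, map_zero, map_zero, add_zero]

/-- the symplectic form as a bilinear form -/
def omB : LinearMap.BilinForm ℝ V :=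
  LinearMap.mk₂ ℝ (fun v w => S.om v w) (fun a b c => by rw [map_add]; rfl)
    (fun c a b => by rw [map_smul]; rfl) (fun a b c => map_add _ _ _) (fun c a b => map_smul _ _ _)

theorem omB_refl : S.omB.IsRefl := fun v w (h : S.om v w = 0) => by
  show S.om w v = 0
  rw [S.om_swap, h, neg_zero]

theorem omB_nd : S.omB.Nondegenerate := by
  refine S.omB_refl.nondegenerate_iff_separatingLeft.2 fun v h => S.om_nd fun w => ?_
  have : S.om v w = 0 := h w
  rw [S.om_swap, this, neg_zero]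

theorem perp_eq (H : Submodule ℝ V) : S.perp H = S.omB.orthogonal H := by
  ext v
  rw [LinearMap.BilinForm.mem_orthogonal_iff]
  rfl

theorem perp_perp (H : Submodule ℝ V) : S.perp (S.perp H) = H := by
  rw [S.perp_eq, S.perp_eq]
  exact LinearMap.BilinForm.orthogonal_orthogonal S.omB_nd S.omB_refl H

theorem perp_anti {H K : Submodule ℝ V} (h : H ≤ K) : S.perp K ≤ S.perp H :=
  fun _ hv w hw => hv w (h hw)

theorem perp_Es : S.perp S.Es = S.Es := by
  ext v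
  rw [S.mem_perp, S.mem_Es]
  constructor
  · intro h
    have h1 := h (S.iS (S.pU v)) ⟨_, rfl⟩
    rwa [S.om_apply, S.pS_iS, S.pU_iS, inner_zero_left, sub_zero, inner_self_eq_zero] at h1
  · intro h w hw
    rw [S.om_apply, h, S.mem_Es.1 hw, inner_zero_right, inner_zero_left, sub_zero]

theorem eS_apply (v : V) : S.eS v = S.iS (S.pS v) := rfl

theorem eS_mem (v : V) : S.eS v ∈ S.Es := ⟨_, rfl⟩

theorem sub_eS_mem (v : V) : v - S.eS v ∈ S.Eu :=
  ⟨S.pU v, by rw [S.eS_apply, sub_eq_iff_eq_add'.2 (S.iS_add v).symm]; rfl⟩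

theorem eq_iS {v : V} (h : v ∈ S.Es) : S.iS (S.pS v) = v := by
  obtain ⟨w, rfl⟩ := h
  show S.iS (S.pS (S.iS w)) = S.iS w
  rw [S.pS_iS]

theorem eq_iU {v : V} (h : v ∈ S.Eu) : S.iU (S.pU v) = v := by
  obtain ⟨w, rfl⟩ := h
  show S.iU (S.pU (S.iU w)) = S.iU w
  rw [S.pU_iU]

end Sys

/-! ### brackets at a point -/

theorem br_sub_left {Y₁ Y₁' Y₂ : V → V} {z : V} (h : DifferentiableAt ℝ Y₁ z)
    (h' : DifferentiableAt ℝ Y₁' z) :
    lieBracket ℝ (fun q => Y₁ q - Y₁' q) Y₂ z = lieBracket ℝ Y₁ Y₂ z - lieBracket ℝ Y₁' Y₂ z := by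
  simp only [lieBracket, fderiv_fun_sub h h', map_sub, ContinuousLinearMap.sub_apply]
  abel

theorem br_sub_right {Y₁ Y₂ Y₂' : V → V} {z : V} (h : DifferentiableAt ℝ Y₂ z)
    (h' : DifferentiableAt ℝ Y₂' z) :
    lieBracket ℝ Y₁ (fun q => Y₂ q - Y₂' q) z = lieBracket ℝ Y₁ Y₂ z - lieBracket ℝ Y₁ Y₂' z := by
  simp only [lieBracket, fderiv_fun_sub h h', map_sub, ContinuousLinearMap.sub_apply]
  abel

theorem br_zero_left {Y₁ Y₂ : V → V} {z : V} (h : Y₁ z = 0) :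
    lieBracket ℝ Y₁ Y₂ z = -fderiv ℝ Y₁ z (Y₂ z) := by
  simp only [lieBracket, h, map_zero, zero_sub]

theorem br_zero_right {Y₁ Y₂ : V → V} {z : V} (h : Y₂ z = 0) :
    lieBracket ℝ Y₁ Y₂ z = fderiv ℝ Y₂ z (Y₁ z) := by
  simp only [lieBracket, h, map_zero, sub_zero]

/-- the Jacobi identity -/
theorem br_jac {Y₁ Y₂ Y₃ : V → V} {z : V} (h₁ : ContDiffAt ℝ (2 : ℕ) Y₁ z)
    (h₂ : ContDiffAt ℝ (2 : ℕ) Y₂ z) (h₃ : ContDiffAt ℝ (2 : ℕ) Y₃ z) :
    lieBracket ℝ (lieBracket ℝ Y₁ Y₂) Y₃ z =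
      lieBracket ℝ Y₁ (lieBracket ℝ Y₂ Y₃) z - lieBracket ℝ Y₂ (lieBracket ℝ Y₁ Y₃) z := by
  have := leibniz_identity_lieBracket (𝕜 := ℝ) (n := (2 : ℕ)) (by simp) h₁ h₂ h₃
  rw [this]
  abel

end Vale.Agent.P207Z
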