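import Vale.Agent.P207Z.Geo.Sec
import Vale.Agent.P207Z.Geo.Alg

/-!
# P207: the socle is parallel along `F`
-/

set_option linter.all false

open Set Filter Topology Metric MeasureTheory VectorField
open scoped ContDiff

noncomputable section

namespace Vale.Agent.P207Z

variable {Γ X B E V Y : Type} [Group Γ] [Countable Γ] [MetricSpace X] [ProperSpace X]
  [MulAction Γ X] [IsIsometricSMul Γ X] [MeasurableSpace X] [BorelSpace X]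
  [TopologicalSpace B] [CompactSpace B] [T2Space B] [SecondCountableTopology B] [MulAction Γ B]
  [ContinuousConstSMul Γ B] [MeasurableSpace B] [BorelSpace B]
  [NormedAddCommGroup E] [InnerProductSpace ℝ E] [FiniteDimensional ℝ E]
  [NormedAddCommGroup V] [NormedSpace ℝ V] [FiniteDimensional ℝ V]
  [MeasurableSpace Y] [MulAction Γ Y]
  {S : Sys Γ X B E V} {T : Bun S V} {m : ℕ} {b : Module.Basis (Fin m) ℝ E} {M : Marg S b}
  {Φ : Bun S (Fm m V × ℝ)} {𝔈 : Bun S (V →L[ℝ] V)}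

namespace Parx

/-- the Lie derivative of a field of endomorphisms, at the centre -/
def lieE (Z : V → V) (A : V → V →L[ℝ] V) : V →L[ℝ] V :=
  fderiv ℝ A 0 (Z 0) - (fderiv ℝ Z 0 * A 0 - A 0 * fderiv ℝ Z 0)

theorem lie_app (Z : V → V) {A : V → V →L[ℝ] V} {v : V → V} (hA : DifferentiableAt ℝ A 0)
    (hv : DifferentiableAt ℝ v 0) : lieBracket ℝ Z (fun q => A q (v q)) 0 =
      lieE Z A (v 0) + A 0 (lieBracket ℝ Z v 0) := by
  simp only [lieBracket, lieE, fderiv_clm_apply hA hv, ContinuousLinearMap.add_apply,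
    ContinuousLinearMap.sub_apply, ContinuousLinearMap.mul_apply, ContinuousLinearMap.comp_apply,
    ContinuousLinearMap.flip_apply, map_sub]
  abel

theorem lie_mul (Z : V → V) {A A' : V → V →L[ℝ] V} (hA : DifferentiableAt ℝ A 0)
    (hA' : DifferentiableAt ℝ A' 0) :
    lieE Z (fun q => A q * A' q) = lieE Z A * A' 0 + A 0 * lieE Z A' := by
  have h := (hA.hasFDerivAt.mul' hA'.hasFDerivAt).fderiv
  change fderiv ℝ (fun q => A q * A' q) 0 = _ at h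
  simp only [lieE, h, ContinuousLinearMap.add_apply, ContinuousLinearMap.smul_apply,
    ContinuousLinearMap.smulRight_apply, smul_eq_mul, MulOpposite.smul_eq_mul_unop,
    MulOpposite.unop_op, op_smul_eq_mul]
  noncomm_ring

theorem lie_zero (Z : V → V) : lieE Z (fun _ => 0) = 0 := by
  simp only [lieE, fderiv_fun_const, Pi.zero_apply, ContinuousLinearMap.zero_apply, mul_zero,
    zero_mul, sub_zero]

theorem lie_add (Z : V → V) {A A' : V → V →L[ℝ] V} (hA : DifferentiableAt ℝ A 0)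
    (hA' : DifferentiableAt ℝ A' 0) : lieE Z (fun q => A q + A' q) = lieE Z A + lieE Z A' := by
  simp only [lieE, fderiv_fun_add hA hA', ContinuousLinearMap.add_apply]
  noncomm_ring

theorem lie_smul (Z : V → V) (c : ℝ) {A : V → V →L[ℝ] V} (hA : DifferentiableAt ℝ A 0) :
    lieE Z (fun q => c • A q) = c • lieE Z A := by
  simp only [lieE, fderiv_fun_const_smul hA, ContinuousLinearMap.smul_apply, mul_smul_comm,
    smul_mul_assoc, smul_sub]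

/-- the trace as a continuous linear map -/
def trL (V : Type) [NormedAddCommGroup V] [NormedSpace ℝ V] [FiniteDimensional ℝ V] :
    (V →L[ℝ] V) →L[ℝ] ℝ :=
  LinearMap.toContinuousLinearMap (LinearMap.trace ℝ V ∘ₗ ContinuousLinearMap.coeLM ℝ)

theorem trL_apply (A : V →L[ℝ] V) : trL V A = Geo.tr A := rfl

/-- the trace form -/
def trB (V : Type) [NormedAddCommGroup V] [NormedSpace ℝ V] [FiniteDimensional ℝ V] :
    (V →L[ℝ] V) →L[ℝ] (V →L[ℝ] V) →L[ℝ] ℝ :=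
  ContinuousLinearMap.compL ℝ (V →L[ℝ] V) (V →L[ℝ] V) ℝ (trL V) ∘L
    ContinuousLinearMap.mul ℝ (V →L[ℝ] V)

theorem trB_apply (A A' : V →L[ℝ] V) : trB V A A' = Geo.tr (A * A') := rfl

theorem fderiv_flat {f : V → ℝ} (h : Flat 1 f 0) : fderiv ℝ f 0 = 0 := by
  refine HasFDerivAt.fderiv (hasFDerivAt_iff_isLittleO.2 ?_)
  have h0 := h.eq_zero
  simp only [Flat, pow_one, Asymptotics.isLittleO_norm_right] at h
  simpa only [h0, sub_zero, ContinuousLinearMap.zero_apply] using h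

theorem tr_lie (Z : V → V) {A : V → V →L[ℝ] V} (hA : DifferentiableAt ℝ A 0)
    (h : Flat 1 (fun q => Geo.tr (A q)) 0) : Geo.tr (lieE Z A) = 0 := by
  have h1 := ((trL V).hasFDerivAt.comp 0 hA.hasFDerivAt).fderiv
  have h2 : Geo.tr (fderiv ℝ A 0 (Z 0)) = 0 := by
    have h3 := DFunLike.congr_fun (h1.symm.trans (fderiv_flat h)) (Z 0)
    exact h3
  rw [lieE, Geo.tr_sub, Geo.tr_sub, h2, Geo.tr_comm, sub_self, sub_zero]

theorem fderiv_bil {F₁ F₂ F₃ : Type} [NormedAddCommGroup F₁] [NormedSpace ℝ F₁]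
    [NormedAddCommGroup F₂] [NormedSpace ℝ F₂] [NormedAddCommGroup F₃] [NormedSpace ℝ F₃]
    (β : F₁ →L[ℝ] F₂ →L[ℝ] F₃) {a : V → F₁} {s : V → F₂} (ha : DifferentiableAt ℝ a 0)
    (hs : DifferentiableAt ℝ s 0) (v : V) : fderiv ℝ (fun q => β (a q) (s q)) 0 v =
      β (a 0) (fderiv ℝ s 0 v) + β (fderiv ℝ a 0 v) (s 0) := by
  rw [β.fderiv_of_bilinear ha hs]
  rfl

theorem lieF_drho (Z : V → V) {a : V → (V →L[ℝ] V) × ℝ} {s : V → Fm m V × ℝ}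
    (ha : DifferentiableAt ℝ a 0) (hs : DifferentiableAt ℝ s 0) :
    lieF Z (fun q => drhoL m V (a q) (s q)) =
      drho m V (lieE Z fun q => (a q).1, (fderiv ℝ a 0 (Z 0)).2) (s 0)
        + drho m V (a 0) (lieF Z s) := by
  have h2 : fderiv ℝ (fun q => (a q).1) 0 = _ := ha.hasFDerivAt.fst.fderiv
  have h3 : ((lieE Z fun q => (a q).1, (fderiv ℝ a 0 (Z 0)).2) : (V →L[ℝ] V) × ℝ) =
      fderiv ℝ a 0 (Z 0) - (fderiv ℝ Z 0 * (a 0).1 - (a 0).1 * fderiv ℝ Z 0, 0) := by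
    rw [lieE, h2]
    exact Prod.ext rfl (sub_zero _).symm
  rw [h3, ← drhoL_apply, map_sub, drhoL_apply (_, 0), drho_lie _ _ 0 (a 0).2, lieF, lieF,
    fderiv_bil (drhoL m V) ha hs]
  simp only [ContinuousLinearMap.add_apply, ContinuousLinearMap.sub_apply,
    ContinuousLinearMap.mul_apply, ContinuousLinearMap.comp_apply,
    ContinuousLinearMap.flip_apply, map_sub, drhoL_apply, Prod.mk.eta]
  abel

theorem nat_app (hT : IsTan T) (h𝔈 : IsEnd 𝔈) (x y : X) (q : V) (h : q ∈ S.dom x y)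
    (A : V →L[ℝ] V) (v : V) : 𝔈.A x y q A (T.A x y q v) = T.A x y q (A v) := by
  rw [h𝔈 x y q h, hT x y q h, ContinuousLinearMap.comp_apply, ContinuousLinearMap.comp_apply,
    ← ContinuousLinearMap.mul_apply (fderiv ℝ (S.τ y x) _), Sys.fderiv_τ_inv h,
    ContinuousLinearMap.one_apply]

theorem nat_mul (h𝔈 : IsEnd 𝔈) (x y : X) (q : V) (h : q ∈ S.dom x y) (A A' : V →L[ℝ] V) :
    𝔈.A x y q A * 𝔈.A x y q A' = 𝔈.A x y q (A * A') := by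
  simp only [h𝔈 x y q h, ← ContinuousLinearMap.mul_def, mul_assoc]
  rw [← mul_assoc (fderiv ℝ (S.τ y x) _), Sys.fderiv_τ_inv h, one_mul]

theorem nat_tr (h𝔈 : IsEnd 𝔈) (x y : X) (q : V) (h : q ∈ S.dom x y) (A A' : V →L[ℝ] V) :
    trB V (𝔈.A x y q A) (𝔈.A x y q A') = trB V A A' := by
  rw [trB_apply, trB_apply, nat_mul h𝔈 x y q h, h𝔈 x y q h, ← ContinuousLinearMap.mul_def,
    ← ContinuousLinearMap.mul_def, Geo.tr_comm, mul_assoc, Sys.fderiv_τ_inv h, mul_one]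

theorem nat_drho (hΦ : IsFrm M Φ) (h𝔈 : IsEnd 𝔈) (x y : X) (q : V) (h : q ∈ S.dom x y)
    (a : (V →L[ℝ] V) × ℝ) (w : Fm m V × ℝ) :
    drhoL m V ((𝔈.prod (S.triv ℝ)).A x y q a) (Φ.A x y q w) = Φ.A x y q (drhoL m V a w) := by
  change drho m V (𝔈.A x y q a.1, a.2) _ = Φ.A x y q (drho m V (a.1, a.2) w)
  rw [hΦ x y q h, hΦ x y q h, h𝔈 x y q h, drho_apply, drho_apply, map_smul,
    der_conj (Sys.fderiv_τ_inv h)]
  refine Prod.ext ?_ rfl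
  ext v
  simp only [ContinuousAlternatingMap.sub_apply, ContinuousAlternatingMap.smul_apply,
    ContinuousAlternatingMap.compContinuousLinearMap_apply, smul_eq_mul]
  ring

theorem diff {F : Type} [NormedAddCommGroup F] [NormedSpace ℝ F] [FiniteDimensional ℝ F]
    {𝔉 : Bun S F} {W : SSub 𝔉} {x : X} {s : V → F} (h : W.IsSec 1 x s) :
    DifferentiableAt ℝ s 0 := h.1.differentiableAt (by simp)

/-- the Lie derivative of a field which preserves `K` preserves `K` -/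
theorem pres (P : Prob S Y) (hT : IsTan T) (h𝔈 : IsEnd 𝔈) {F K : SSub T} {G : SSub 𝔈}
    (hK : Br0 F K K) (hG : ∀ᵐ x ∂S.μ, ∀ A ∈ G.H x, ∀ v ∈ K.H x, A v ∈ K.H x) :
    ∀ᵐ x ∂S.μ, ∀ Z A, F.IsSec 1 x Z → G.IsSec 1 x A → ∀ v ∈ K.H x, lieE Z A v ∈ K.H x := by
  filter_upwards [hK, hG, sec_exists K, sec_mem G,
    sec_bilin P (ContinuousLinearMap.id ℝ (V →L[ℝ] V)) (nat_app hT h𝔈) hG]
    with x h1 h2 h3 h4 h5 Z A hZ hA v hv
  obtain ⟨s, hs, rfl⟩ := h3 1 v hv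
  have h6 := h1 Z _ hZ (h5 1 A s hA hs)
  change lieBracket ℝ Z (fun q => A q (s q)) 0 ∈ _ at h6
  rw [lie_app Z (diff hA) (diff hs)] at h6
  exact (add_mem_cancel_right (h2 _ (h4 1 A hA) _ (h1 Z s hZ hs))).1 h6

/-- two sections with the same value -/
theorem lie_sub_mem (G : SSub 𝔈) : ∀ᵐ x ∂S.μ, ∀ Z A A', G.IsSec 1 x A → G.IsSec 1 x A' →
    A 0 = A' 0 → lieE Z A - lieE Z A' ∈ G.H x := by
  filter_upwards [sec_fderiv G] with x h5 Z A A' hA hA' e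
  have h7 := h5 _ (hA.add (hA'.smul (f := fun _ => -1) contDiffAt_const))
    (by rw [e, neg_one_smul, add_neg_cancel]) (Z 0)
  have h8 := ((diff hA).hasFDerivAt.add ((diff hA').hasFDerivAt.const_smul (-1 : ℝ))).fderiv
  change fderiv ℝ (fun q => A q + (-1 : ℝ) • A' q) 0 = _ at h8
  rw [h8, neg_one_smul, ← sub_eq_add_neg] at h7
  rwa [lieE, lieE, e, sub_sub_sub_cancel_right]

/-- the enveloping algebra is parallel -/
theorem par_env (P : Prob S Y) (h𝔈 : IsEnd 𝔈) {g : X → Submodule ℝ (V →L[ℝ] V)} {G : SSub 𝔈}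
    (hG : ∀ᵐ x ∂S.μ, G.H x = Geo.env (g x)) : ∀ᵐ x ∂S.μ, ∀ Z,
      (∀ A₀ ∈ g x, ∃ A, G.IsSec 1 x A ∧ A 0 = A₀ ∧ lieE Z A ∈ G.H x) →
        ∀ A, G.IsSec 1 x A → lieE Z A ∈ G.H x := by
  have h0 : ∀ᵐ x ∂S.μ, ∀ A ∈ G.H x, ∀ A' ∈ G.H x, A * A' ∈ G.H x :=
    hG.mono fun x hx A hA A' hA' => by
      rw [hx] at hA hA' ⊢
      exact Geo.mul_mem_env hA hA'
  have h0' : ∀ᵐ x ∂S.μ, ∀ k A A', G.IsSec k x A → G.IsSec k x A' →
      G.IsSec k x fun q => A q * A' q :=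
    sec_bilin P (ContinuousLinearMap.mul ℝ (V →L[ℝ] V)) (nat_mul h𝔈) h0
  filter_upwards [hG, h0, sec_exists G, sec_mem G, h0', lie_sub_mem G]
    with x h1 h2 h3 h4 h6 h7 Z hZ A hA
  have h9 : Geo.env (g x) ≤
      { carrier := {A₀ | ∃ A, G.IsSec 1 x A ∧ A 0 = A₀ ∧ lieE Z A ∈ G.H x}
        zero_mem' := ⟨_, SSub.IsSec.zero G 1 x, rfl, (lie_zero Z).symm ▸ zero_mem _⟩
        add_mem' := by
          rintro _ _ ⟨s, hs, rfl, k⟩ ⟨s', hs', rfl, k'⟩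
          exact ⟨_, hs.add hs', rfl, (lie_add Z (diff hs) (diff hs')).symm ▸ add_mem k k'⟩
        smul_mem' := by
          rintro c _ ⟨s, hs, rfl, k⟩
          exact ⟨_, hs.smul (f := fun _ => c) contDiffAt_const, rfl,
            (lie_smul Z c (diff hs)).symm ▸ Submodule.smul_mem _ c k⟩ } := by
    refine Geo.env_le ?_ ?_
    · obtain ⟨s, hs, e⟩ := h3 1 1 (h1 ▸ Geo.one_mem_env)
      have k := h7 Z _ s (h6 1 s s hs hs) hs (by rw [e, mul_one])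
      rw [lie_mul Z (diff hs) (diff hs), e, mul_one, one_mul, add_sub_cancel_right] at k
      exact ⟨s, hs, e, k⟩
    · rintro A₀ k0 _ ⟨s', hs', rfl, k1⟩
      obtain ⟨s, hs, rfl, k2⟩ := hZ A₀ k0
      refine ⟨_, h6 1 s s' hs hs', rfl, ?_⟩
      rw [lie_mul Z (diff hs) (diff hs')]
      exact add_mem (h2 _ k2 _ (h4 1 s' hs')) (h2 _ (h4 1 s hs) _ k1)
  obtain ⟨s, hs, e, k⟩ := h9 (h1 ▸ h4 1 A hA)
  have k2 := add_mem (h7 Z A s hA hs e.symm) k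
  rwa [sub_add_cancel] at k2

/-- the radical is parallel -/
theorem par_rad (P : Prob S Y) (h𝔈 : IsEnd 𝔈) {g : X → Submodule ℝ (V →L[ℝ] V)} {G R : SSub 𝔈}
    (hG : ∀ᵐ x ∂S.μ, G.H x = Geo.env (g x)) (hR : ∀ᵐ x ∂S.μ, R.H x = Geo.rad (g x)) :
    ∀ᵐ x ∂S.μ, ∀ Z, (∀ A, G.IsSec 1 x A → lieE Z A ∈ G.H x) →
      ∀ A, R.IsSec 1 x A → lieE Z A ∈ R.H x := by
  have h0 : ∀ᵐ x ∂S.μ, R.H x ≤ G.H x := by
    filter_upwards [hG, hR] with x h1 h2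
    rw [h1, h2]
    exact Geo.rad_le
  have h0' : ∀ᵐ x ∂S.μ, ∀ A ∈ R.H x, ∀ A' ∈ G.H x, trB V A A' = 0 := by
    filter_upwards [hG, hR] with x h1 h2 A hA A' hA'
    rw [h1] at hA'
    rw [h2] at hA
    exact hA.2 A' hA'
  filter_upwards [hG, hR, h0', sec_exists G, sec_mem R, sec_le P h0,
    sec_form P (trB V) (nat_tr h𝔈) h0'] with x h1 h2 h3 h4 h5 h6 h7 Z hZ A hA
  rw [h2]
  refine ⟨h1 ▸ hZ A (h6 1 1 A le_rfl hA), fun A₁ k1 => ?_⟩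
  obtain ⟨s, hs, rfl⟩ := h4 1 A₁ (h1 ▸ k1)
  have k2 := tr_lie Z ((diff hA).mul (diff hs)) (h7 1 A s hA hs)
  change Geo.tr (lieE Z fun q => A q * s q) = 0 at k2
  rwa [lie_mul Z (diff hA) (diff hs), Geo.tr_add, ← trB_apply (A 0),
    h3 _ (h5 1 A hA) _ (hZ s hs), add_zero] at k2

/-- the stabiliser is parallel -/
theorem par_stab (P : Prob S Y) (hT : IsTan T) (hΦ : IsFrm M Φ) (h𝔈 : IsEnd 𝔈) {F K : SSub T}
    {W : SSub Φ} (hF : Br0 F F F) (hK : Br0 F K K) (hW : LieInv F W) {g : SSub 𝔈}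
    (hg : ∀ᵐ x ∂S.μ, g.H x = stab (F.H x) (K.H x) (W.H x)) : ∀ᵐ x ∂S.μ, ∀ Z, F.IsSec 1 x Z →
      ∀ A₀ ∈ g.H x, ∃ A, g.IsSec 1 x A ∧ A 0 = A₀ ∧ lieE Z A ∈ g.H x := by
  obtain ⟨G, hG⟩ := exists_stabH P hT hΦ h𝔈 F K W
  have h0 : ∀ᵐ x ∂S.μ, ∀ a ∈ G.H x, ContinuousLinearMap.fst ℝ (V →L[ℝ] V) ℝ a ∈ g.H x := by
    filter_upwards [hG, hg] with x h1 h2 a ha
    rw [h2]
    exact mem_stab.2 ⟨((h1 a).1 ha).1, ((h1 a).1 ha).2.1, a.2, ((h1 a).1 ha).2.2⟩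
  have h0' : ∀ᵐ x ∂S.μ, ∀ a ∈ G.H x, ∀ w ∈ W.H x, drhoL m V a w ∈ W.H x :=
    hG.mono fun x h1 a ha => ((h1 a).1 ha).2.2
  filter_upwards [hg, hG, hW, h0', sec_exists G, sec_exists W,
    sec_lin P (ContinuousLinearMap.fst ℝ (V →L[ℝ] V) ℝ) (fun _ _ _ _ _ => rfl) h0,
    sec_bilin P (drhoL m V) (nat_drho hΦ h𝔈) h0',
    pres P hT h𝔈 hF (hg.mono fun x h A hA => (mem_stab.1 (h ▸ hA)).1),
    pres P hT h𝔈 hK (hg.mono fun x h A hA => (mem_stab.1 (h ▸ hA)).2.1)]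
    with x h1 h2 h3 h4 h5 h6 h7 h8 h9 h10 Z hZ A₀ hA
  obtain ⟨k1, k2, t, k3⟩ := mem_stab.1 (h1 ▸ hA)
  have k4 := (h2 (A₀, t)).2 ⟨k1, k2, k3⟩
  obtain ⟨a, ha, e⟩ := h5 1 _ k4
  have k5 := h7 1 a ha
  refine ⟨_, k5, congrArg Prod.fst e, h1 ▸ mem_stab.2 ⟨h9 Z _ hZ k5, h10 Z _ hZ k5,
    (fderiv ℝ a 0 (Z 0)).2, fun w hw => ?_⟩⟩
  obtain ⟨s, hs, rfl⟩ := h6 1 w hw
  have k6 := h3 Z _ hZ (h8 1 a s ha hs)
  rw [lieF_drho Z (diff ha) (diff hs)] at k6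
  exact (add_mem_cancel_right (h4 _ (e ▸ k4) _ (h3 Z s hZ hs))).1 k6

end Parx

open Parx in
theorem br0_socle (P : Prob S Y) (hT : IsTan T) (hΦ : IsFrm M Φ) {F K Z : SSub T} {W : SSub Φ}
    (hFK : ∀ᵐ x ∂S.μ, F.H x ≤ K.H x) (hF : Br0 F F F) (hK : Br0 F K K) (hW : LieInv F W)
    (hZ : ∀ᵐ x ∂S.μ, Z.H x =
      socle (Geo.rad (stab (F.H x) (K.H x) (W.H x))) (F.H x) (K.H x)) : Br0 F Z Z := by
  obtain ⟨𝔈, h𝔈⟩ := exists_isEnd S
  obtain ⟨g, hg⟩ := isS_stab P hT hΦ h𝔈 F K W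
  obtain ⟨G, hG⟩ := isS_env P h𝔈 g
  obtain ⟨R, hR⟩ := isS_rad P h𝔈 g
  have h0 : ∀ᵐ x ∂S.μ, ∀ v, v ∈ Z.H x ↔ v ∈ K.H x ∧ ∀ A ∈ R.H x, A v ∈ F.H x := by
    filter_upwards [hZ, hg, hR] with x h1 h2 h3 v
    rw [h1, h3, h2]
    rfl
  have h0' : ∀ᵐ x ∂S.μ, g.H x ≤ G.H x := hG.mono fun x h => h ▸ Geo.le_env
  filter_upwards [h0, h0', hF, hK, sec_exists R, sec_mem Z, sec_le P h0',
    sec_le P (W := Z) (W' := K) (h0.mono fun x h v hv => ((h v).1 hv).1),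
    sec_bilin P (ContinuousLinearMap.id ℝ (V →L[ℝ] V)) (nat_app hT h𝔈) (W₁ := R) (W₂ := Z)
      (W₃ := F) (h0.mono fun x h A hA v hv => ((h v).1 hv).2 A hA),
    par_env P h𝔈 hG, par_rad P h𝔈 hG hR, par_stab P hT hΦ h𝔈 hF hK hW hg]
    with x h1 h2 h3 h4 h5 h6 h7 h8 h9 h10 h11 h12 Y₁ Y₂ k1 k2
  refine (h1 _).2 ⟨h4 Y₁ Y₂ k1 (h8 1 1 Y₂ le_rfl k2), fun A₀ hA => ?_⟩
  obtain ⟨A, hA', rfl⟩ := h5 1 A₀ hA
  have k3 := h11 Y₁ (h10 Y₁ fun A₁ k => by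
    obtain ⟨s, hs, e, k4⟩ := h12 Y₁ k1 A₁ k
    exact ⟨s, h7 1 1 s le_rfl hs, e, h2 k4⟩) A hA'
  have k4 := h3 Y₁ _ k1 (h9 1 A Y₂ hA' k2)
  change lieBracket ℝ Y₁ (fun q => A q (Y₂ q)) 0 ∈ _ at k4
  rw [lie_app Y₁ (diff hA') (diff k2)] at k4
  exact (add_mem_cancel_left (((h1 _).1 (h6 1 Y₂ k2)).2 _ k3)).1 k4

end Vale.Agent.P207Z
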