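import Vale.Agent.P207Z.Geo.MainA
import Vale.Agent.P207Z.Geo.LieW
import Vale.Agent.P207Z.Geo.Alg
import Vale.Agent.P207Z.Geo.Par
import Vale.Agent.P207Z.Geo.Idem

/-!
# P207: the formal geometry, second part: the socle and the bundle `Z`
-/

set_option linter.all false

open Set Filter Topology Metric MeasureTheory VectorField
open scoped ContDiff

noncomputable section

namespace Vale.Agent.P207Z

variable {Γ X B E V Y : Type} [Group Γ] [Countable Γ] [MetricSpace X] [ProperSpace X]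
  [MulAction Γ X] [IsIsometricSMul Γ X] [MeasurableSpace X] [BorelSpace X]
  [TopologicalSpace B] [CompactSpace B] [T2Space B] [SecondCountableTopology B] [MulAction Γ B]
  [ContinuousConstSMul Γ B] [MeasurableSpace B] [BorelSpace B]
  [NormedAddCommGroup E] [InnerProductSpace ℝ E] [FiniteDimensional ℝ E]
  [NormedAddCommGroup V] [NormedSpace ℝ V] [FiniteDimensional ℝ V]
  [MeasurableSpace Y] [MulAction Γ Y]
  {S : Sys Γ X B E V} {T : Bun S V} {m : ℕ} {b : Module.Basis (Fin m) ℝ E} {M : Marg S b}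
  {Φ : Bun S (Fm m V × ℝ)}

/-- the class in which `Z` is chosen -/
structure Cl (F K Z : SSub T) : Prop where
  lt : ∀ᵐ x ∂S.μ, F.H x < Z.H x
  le : ∀ᵐ x ∂S.μ, Z.H x ≤ K.H x
  le' : ∀ᵐ x ∂S.μ, Z.H x ≤ F.H x ⊔ S.Eu
  br : Br0 F Z Z

/-- the socle of `K / F` is in the class -/
theorem exists_cl (P : Prob S Y) (Tm : Tim S M) (hT : IsTan T) (hΦ : IsFrm M Φ) {F K : SSub T}
    {W₀ : SSub Φ} (h₀ : Char M W₀) (hF : IsMax F) (hFK : ∀ᵐ x ∂S.μ, F.H x < K.H x)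
    (hK : Br0 K K K) : ∃ Z, Cl F K Z := by
  have hFK' : ∀ᵐ x ∂S.μ, F.H x ≤ K.H x := hFK.mono fun _ h => h.le
  have hK' : Br0 F K K := by
    filter_upwards [hK, sec_le P hFK'] with x a c Y₁ Y₂ h₁ h₂
    exact a _ _ (c 1 1 _ le_rfl h₁) h₂
  obtain ⟨W, hW, hL⟩ := exists_lieInv P Tm hT hΦ hF.1 h₀
  obtain ⟨𝔈, h𝔈⟩ := exists_isEnd S
  obtain ⟨g, hg⟩ := isS_stab P hT hΦ h𝔈 F K W
  obtain ⟨R, hR⟩ := isS_rad P h𝔈 g
  obtain ⟨𝔷, h𝔷⟩ := isS_cen P h𝔈 g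
  obtain ⟨Z, hZ⟩ := isS_socle P hT h𝔈 R F K
  have hZ' : ∀ᵐ x ∂S.μ, Z.H x =
      socle (Geo.rad (stab (F.H x) (K.H x) (W.H x))) (F.H x) (K.H x) := by
    filter_upwards [hZ, hR, hg] with x a c d
    rw [a, c, d]
  have h𝔷' : ∀ᵐ x ∂S.μ, 𝔷.H x = Geo.cen (stab (F.H x) (K.H x) (W.H x)) := by
    filter_upwards [h𝔷, hg] with x a c
    rw [a, c]
  have iF : ∀ x, ∀ A ∈ Geo.env (stab (F.H x) (K.H x) (W.H x)), ∀ v ∈ F.H x, A v ∈ F.H x :=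
    fun x => Geo.mem_env_of fun A hA => (mem_stab.1 hA).1
  have iK : ∀ x, ∀ A ∈ Geo.env (stab (F.H x) (K.H x) (W.H x)), ∀ v ∈ K.H x, A v ∈ K.H x :=
    fun x => Geo.mem_env_of fun A hA => (mem_stab.1 hA).2.1
  have hFZ : ∀ᵐ x ∂S.μ, F.H x ≤ Z.H x := by
    filter_upwards [hZ', hFK'] with x a c v hv
    rw [a]
    exact ⟨c hv, fun A hA => iF x A hA.1 v hv⟩
  have he : ∀ᵐ x ∂S.μ, S.eS ∈ 𝔷.H x := by
    filter_upwards [h𝔷', exists_grad P Tm hT hΦ F K W, stab_tr hW F.H K.H] with x a c d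
    obtain ⟨s, p, hp, hs⟩ := c
    rw [a, ← hp.neg]
    exact Geo.pur stab_lie s p hp.sum hp.orth hp.zero hs (by rw [hp.neg]; exact d)
  have hI := idem P hT h𝔈 hFZ (𝔷 := 𝔷) (by
    filter_upwards [h𝔷', hZ'] with x a c A hA
    rw [a] at hA
    rw [c]
    exact ⟨iF x A hA.1, fun v hv =>
      ⟨iK x A hA.1 v hv.1, fun A' hA' => hv.2 _ (Geo.rad_mul_right hA' hA.1)⟩⟩) (by
    filter_upwards [h𝔷', hZ'] with x a c A hA A' hA' v hv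
    rw [a] at hA hA'
    rw [c] at hv
    exact hv.2 _ (hA.2 A' hA'.1)) he
  have hM := hF.2 _ hI (by
    filter_upwards [hF.1] with x a
    refine sup_le a ?_
    rintro _ ⟨v, -, rfl⟩
    exact S.eS_mem v)
  refine ⟨Z, ?_, ?_, ?_, br0_socle P hT hΦ hFK' (hF.brFF P hT) hK' hL hZ'⟩
  · filter_upwards [hFZ, hZ', hFK] with x a c d
    obtain ⟨v, h1, h2, h3⟩ := Geo.soc (g := stab (F.H x) (K.H x) (W.H x)) d
      fun A hA => (mem_stab.1 hA).2.1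
    exact lt_of_le_not_ge a fun h => h2 (h (by rw [c]; exact ⟨h1, h3⟩))
  · filter_upwards [hZ'] with x a v hv
    rw [a] at hv
    exact hv.1
  · filter_upwards [hM] with x a v hv
    have := Submodule.add_mem_sup (a (Submodule.mem_sup_right (Submodule.mem_map_of_mem hv)))
      (S.sub_eS_mem v)
    simpa using this

/-- the class is stable under the adjunction of the brackets -/
theorem Cl.ext (P : Prob S Y) (hT : IsTan T) {F K Z : SSub T} (hF : ∀ᵐ x ∂S.μ, F.H x ≤ S.Es)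
    (hK : Br0 K K K) (h : Cl F K Z) :
    ∃ Z', Cl F K Z' ∧ ∀ᵐ x ∂S.μ, Z'.H x = Z.H x ⊔ brSpan Z Z x := by
  obtain ⟨Z', hZ'⟩ := Z.isS.sup P (isS_brSpan P hT Z Z)
  have hFZ : ∀ᵐ x ∂S.μ, F.H x ≤ Z.H x := h.lt.mono fun _ h => h.le
  have hZZ : ∀ᵐ x ∂S.μ, Z.H x ≤ Z'.H x := hZ'.mono fun _ a => a ▸ le_sup_left
  have b0 : Br0 Z Z Z' := by
    filter_upwards [hZ'] with x a Y₁ Y₂ h₁ h₂
    rw [a]
    exact Submodule.mem_sup_right (Submodule.subset_span ⟨Y₁, Y₂, h₁, h₂, rfl⟩)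
  refine ⟨Z', ⟨?_, ?_, ?_, ?_⟩, hZ'⟩
  · filter_upwards [h.lt, hZZ] with x a c using a.trans_le c
  · filter_upwards [hZ', h.le, hK, sec_le P h.le] with x a c d e
    rw [a]
    refine sup_le c (Submodule.span_le.2 ?_)
    rintro _ ⟨Y₁, Y₂, h₁, h₂, rfl⟩
    exact d _ _ (e 1 1 _ le_rfl h₁) (e 1 1 _ le_rfl h₂)
  · filter_upwards [hZ', h.le', h.br, sec_le P hFZ, sec_tanU hT hF h.le', ae_gd P F, ae_gd P Z]
      with x a c d e f g g'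
    rw [a]
    refine sup_le c (Submodule.span_le.2 ?_)
    rintro _ ⟨Y₁, Y₂, h₁, h₂, rfl⟩
    have key : ∀ Y₀, Z.IsSec 1 x Y₀ → ∃ φ, F.IsSec 1 x φ ∧ Z.IsSec 1 x (fun q => Y₀ q - φ q) ∧
        Y₀ 0 - φ 0 ∈ S.Eu := fun Y₀ h₀ => by
      obtain ⟨u, hu, w, hw, e₀⟩ := Submodule.mem_sup.1 (c (g'.mem 1 _ h₀))
      obtain ⟨φ, s, e₁⟩ := g.ex 1 u hu
      exact ⟨φ, s, h₀.sub (e 1 1 _ le_rfl s), by rw [e₁, ← e₀, add_sub_cancel_left]; exact hw⟩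
    obtain ⟨φ₁, s₁, t₁, u₁⟩ := key _ h₁
    obtain ⟨φ₂, s₂, t₂, u₂⟩ := key _ h₂
    have k1 : lieBracket ℝ (fun q => Y₁ q - φ₁ q) (fun q => Y₂ q - φ₂ q) 0 ∈ F.H x ⊔ S.Eu := by
      have a1 := f _ t₂ u₂ (S.pU (Y₁ 0 - φ₁ 0))
      have a2 := f _ t₁ u₁ (S.pU (Y₂ 0 - φ₂ 0))
      rw [S.eq_iU u₁] at a1
      rw [S.eq_iU u₂] at a2
      exact Submodule.sub_mem _ a1 a2
    have k2 := c (d _ _ s₁ h₂)
    have k3 := c (d _ _ s₂ t₁)
    rw [br_sub_right h₂.diff s₂.diff, br_sub_left h₁.diff s₁.diff] at k1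
    rw [lieBracket_swap] at k3
    have k4 := Submodule.sub_mem _ (Submodule.add_mem _ k1 k2) k3
    rwa [sub_neg_eq_add, add_right_comm, sub_add_cancel, sub_add_cancel] at k4
  · refine (br0_of_chr P (Eventually.of_forall fun _ => le_rfl) ?_).swap
    filter_upwards [hZ', hZZ, hFZ, h.br.swap, sec_le P hZZ, b0, br_of_br0 P hT b0,
      br_of_br0 P hT h.br.swap, ae_gd P F, ae_gd P Z] with x a c c' d e f f' d' g g'
    have k0 : Z.H x ≤ chr Z' F Z' x := fun v hv => by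
      obtain ⟨Y₁, s₁, e₁⟩ := g'.ex 1 v hv
      exact Submodule.subset_span ⟨Y₁, e 1 1 _ le_rfl s₁, e₁, fun φ hφ => c (d _ _ s₁ hφ)⟩
    refine a.le.trans (sup_le k0 (Submodule.span_le.2 ?_))
    rintro _ ⟨Y₁, Y₂, h₁, h₂, rfl⟩
    obtain ⟨Z₁, s₁, t₁, u₁⟩ := g'.two h₁
    obtain ⟨Z₂, s₂, t₂, u₂⟩ := g'.two h₂
    have k1 : lieBracket ℝ Z₁ Z₂ 0 ∈ chr Z' F Z' x := by
      refine Submodule.subset_span ⟨_, f' 1 _ _ s₁ s₂, rfl, fun Y₃ h₃ => ?_⟩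
      obtain ⟨Z₃, s₃, t₃, u₃⟩ := g.two h₃
      have k2 : lieBracket ℝ (lieBracket ℝ Z₁ Z₂) Z₃ 0 ∈ Z'.H x := by
        rw [br_jac s₁.1 s₂.1 s₃.1]
        exact Submodule.sub_mem _ (f _ _ t₁ (d' 1 _ _ s₂ s₃)) (f _ _ t₂ (d' 1 _ _ s₁ s₃))
      simpa using Submodule.add_mem _ (c (c' (u₃ (lieBracket ℝ Z₁ Z₂)).2)) k2
    simpa using Submodule.add_mem _ (k0 (u₁ Y₂).1) (Submodule.add_mem _ (k0 (u₂ Z₁).2) k1)

theorem exists_Z (P : Prob S Y) (hT : IsTan T) {F K : SSub T} (hF : ∀ᵐ x ∂S.μ, F.H x ≤ S.Es)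
    (hK : Br0 K K K) (h : ∃ Z, Cl F K Z) : ∃ Z, Cl F K Z ∧ Br0 Z Z Z := by
  obtain ⟨Z, hZ, hm⟩ := exists_max P (Cl F K) h
  obtain ⟨Z', hZ', e⟩ := hZ.ext P hT hF hK
  refine ⟨Z, hZ, ?_⟩
  filter_upwards [hm Z' hZ' (e.mono fun _ a => a ▸ le_sup_left), e] with x a c Y₁ Y₂ h₁ h₂
  rw [← a, c]
  exact Submodule.mem_sup_right (Submodule.subset_span ⟨Y₁, Y₂, h₁, h₂, rfl⟩)

/-- by the symmetry, `F` is not zero -/
theorem IsMax.ne_bot (P : Prob S Y) (Fl : Flip S) {F K Z : SSub S.TV} (hF : IsMax F)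
    (h : Cl F K Z) : ∀ᵐ x ∂S.μ, F.H x ≠ ⊥ := by
  obtain ⟨d, hd⟩ := F.rank P
  rcases Nat.eq_zero_or_pos d with rfl | h0
  · exfalso
    have h1 : ∀ᵐ x ∂S.μ, F.H x = ⊥ := hd.mono fun _ a => Submodule.finrank_eq_zero.1 a
    have h2 : ∀ᵐ x ∂S.μ, Z.H x ≤ S.Eu := by
      filter_upwards [h1, h.le'] with x a c
      rwa [a, bot_sup_eq] at c
    have h3 := hF.2 _ (Z.isS.flip Fl) (by
      filter_upwards [Fl.ae h2] with x a
      rintro _ ⟨v, hv, rfl⟩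
      obtain ⟨w, rfl⟩ := a hv
      exact ⟨w, by simp [Sys.sw, S.pU_iU, S.pS_iU]⟩)
    obtain ⟨x, a, c, e, f⟩ := Sys.ae_exists (h3.and (h1.and ((Fl.ae h2).and (Fl.ae h.lt))))
    obtain ⟨v, hv, hv'⟩ := SetLike.exists_of_lt f
    obtain ⟨w, rfl⟩ := e hv
    have h4 := a (Submodule.mem_map_of_mem hv)
    rw [c, Submodule.mem_bot] at h4
    have h5 : w = 0 := by simpa [Sys.sw, S.pU_iU, S.pS_iU, S.pS_iS] using congrArg S.pS h4
    exact hv' (by rw [h5, map_zero]; exact Submodule.zero_mem _)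
  · filter_upwards [hd] with x a e
    rw [e, finrank_bot] at a
    exact h0.ne a

theorem frm_bun (M : Marg S b) : IsFrm M M.bun := fun _ _ _ _ _ => rfl

/-- **The formal geometry.** -/
theorem geo (P : Prob S Y) (Fl : Flip S) (Tm : Tim S M) (W₀ : SSub M.bun) (h₀ : Char M W₀) :
    IsS S.TV (fun _ => S.Es) ∨ ∃ F C Z : SSub S.TV, Data F C Z := by
  have hT := tan_TV S
  obtain ⟨F, hF⟩ := exists_isMax P S.TV
  obtain ⟨d, hd⟩ := F.rank P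
  by_cases h1 : d = Module.finrank ℝ S.Es
  · refine Or.inl ⟨F, ?_⟩
    filter_upwards [hd, hF.1] with x a c
    exact Submodule.eq_of_le_of_finrank_eq c (a.trans h1)
  have hne : ∀ᵐ x ∂S.μ, F.H x ≠ S.Es := hd.mono fun _ a e => h1 (by rw [← a, e])
  obtain ⟨C, hC⟩ := isS_perp P F
  have hb := hF.brFC P hC
  obtain ⟨K, k1, k2, k3⟩ := exists_K P hT hF.1 hne hC hb
  obtain ⟨Z, hZ, hz⟩ := exists_Z P hT hF.1 k3 (exists_cl P Tm hT (frm_bun M) h₀ hF k1 k3)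
  refine Or.inr ⟨F, C, Z, hF.1, hF.ne_bot P Fl hZ, hC, hZ.lt, hZ.le', ?_,
    br_of_br0 P hT (hF.brFF P hT), br_of_br0 P hT hb, br_of_br0 P hT hZ.br, br_of_br0 P hT hz⟩
  filter_upwards [hZ.le, k2] with x a c using a.trans c

end Vale.Agent.P207Z
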