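import Vale.Agent.P207Z.Geo.Lin
import Vale.Agent.P207Z.Geo.Sec
import Vale.Agent.P207Z.Geo.Br
import Vale.Agent.P207Z.Geo.Axis
import Vale.Agent.P207Z.Geo.Grad
import Vale.Agent.P207Z.Ops

/-!
# P207: the formal geometry, first part: `F`, `C`, `K`
-/

set_option linter.all false

open Set Filter Topology Metric MeasureTheory VectorField
open scoped ContDiff

noncomputable section

namespace Vale.Agent.P207Z

variable {Γ X B E V Y : Type} [Group Γ] [Countable Γ] [MetricSpace X] [ProperSpace X]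
  [MulAction Γ X] [IsIsometricSMul Γ X] [MeasurableSpace X] [BorelSpace X]
  [TopologicalSpace B] [CompactSpace B] [T2Space B] [SecondCountableTopology B] [MulAction Γ B]
  [ContinuousConstSMul Γ B] [MeasurableSpace B] [BorelSpace B]
  [NormedAddCommGroup E] [InnerProductSpace ℝ E] [FiniteDimensional ℝ E]
  [NormedAddCommGroup V] [NormedSpace ℝ V] [FiniteDimensional ℝ V]
  [MeasurableSpace Y] [MulAction Γ Y]
  {F₁ : Type} [NormedAddCommGroup F₁] [NormedSpace ℝ F₁] [FiniteDimensional ℝ F₁]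
  {S : Sys Γ X B E V} {T : Bun S V} {𝔉 : Bun S F₁}

theorem SSub.isS (W : SSub 𝔉) : IsS 𝔉 W.H := ⟨W, Eventually.of_forall fun _ => rfl⟩

theorem tan_TV (S : Sys Γ X B E V) : IsTan S.TV := fun _ _ _ _ => rfl

theorem isS_perp (P : Prob S Y) (W : SSub S.TV) : IsS S.TV fun x => S.perp (W.H x) :=
  (W.isS.perp P).congr (Eventually.of_forall fun x => by
    ext v
    refine forall₂_congr fun w _ => ?_
    show S.om v w ∈ (⊥ : Submodule ℝ ℝ) ↔ S.om w v = 0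
    rw [Submodule.mem_bot, S.om_swap, neg_eq_zero])

/-- a member of maximal rank of a class of subbundles -/
theorem exists_max (P : Prob S Y) (Q : SSub 𝔉 → Prop) (h : ∃ W, Q W) :
    ∃ W, Q W ∧ ∀ W', Q W' → (∀ᵐ x ∂S.μ, W.H x ≤ W'.H x) → ∀ᵐ x ∂S.μ, W'.H x = W.H x := by
  classical
  choose d hd using fun W : SSub 𝔉 => W.rank P
  have hb : ∀ W, d W ≤ Module.finrank ℝ F₁ := fun W => by
    obtain ⟨x, hx⟩ := Sys.ae_exists (hd W)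
    rw [← hx]
    exact Submodule.finrank_le _
  obtain ⟨W₀, h₀⟩ := h
  have hne : {n | ∃ W, Q W ∧ d W = n}.Nonempty := ⟨_, W₀, h₀, rfl⟩
  have hbd : BddAbove {n | ∃ W, Q W ∧ d W = n} := ⟨_, by rintro _ ⟨W, -, rfl⟩; exact hb W⟩
  obtain ⟨W, hW, e⟩ := Nat.sSup_mem hne hbd
  refine ⟨W, hW, fun W' hW' hle => ?_⟩
  have h1 : d W' ≤ d W := e ▸ le_csSup hbd ⟨W', hW', rfl⟩
  filter_upwards [hle, hd W, hd W'] with x hx h2 h3
  exact (Submodule.eq_of_le_of_finrank_le hx (by rw [h2, h3]; exact h1)).symm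

theorem SSub.IsSec.diff {W : SSub 𝔉} {k : ℕ} {x : X} {s : V → F₁} (h : W.IsSec (k + 1) x s) :
    DifferentiableAt ℝ s 0 :=
  h.1.differentiableAt (by simp)

theorem SSub.IsSec.neg {W : SSub 𝔉} {k : ℕ} {x : X} {s : V → F₁} (h : W.IsSec k x s) :
    W.IsSec k x fun q => -s q := by
  simpa using h.smul (f := fun _ => (-1 : ℝ)) contDiffAt_const

theorem SSub.IsSec.sub {W : SSub 𝔉} {k : ℕ} {x : X} {s s' : V → F₁} (h : W.IsSec k x s)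
    (h' : W.IsSec k x s') : W.IsSec k x fun q => s q - s' q := by
  simpa [sub_eq_add_neg] using h.add h'.neg

theorem br_swap_fun (Y₁ Y₂ : V → V) : lieBracket ℝ Y₁ Y₂ = fun q => -lieBracket ℝ Y₂ Y₁ q :=
  funext fun _ => lieBracket_swap

/-- the basic facts on the sections at a good point -/
structure Gd (W : SSub 𝔉) (x : X) : Prop where
  ex : ∀ k, ∀ v ∈ W.H x, ∃ s, W.IsSec k x s ∧ s 0 = v
  mem : ∀ k s, W.IsSec k x s → s 0 ∈ W.H x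
  der : ∀ s, W.IsSec 1 x s → s 0 = 0 → ∀ v, fderiv ℝ s 0 v ∈ W.H x
  mono : ∀ k k' s, k' ≤ k → W.IsSec k x s → W.IsSec k' x s

theorem ae_gd (P : Prob S Y) (W : SSub 𝔉) : ∀ᵐ x ∂S.μ, Gd W x := by
  filter_upwards [sec_exists W, sec_mem W, sec_fderiv W,
    sec_le P (W := W) (W' := W) (Eventually.of_forall fun _ => le_rfl)] with x h1 h2 h3 h4
  exact ⟨h1, h2, h3, h4⟩

/-- a section of order two with the same value -/
theorem Gd.two {W : SSub T} {x : X} (g : Gd W x) {Y₁ : V → V} (h : W.IsSec 1 x Y₁) :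
    ∃ Y₁', W.IsSec 2 x Y₁' ∧ W.IsSec 1 x Y₁' ∧ ∀ Y₂ : V → V,
      lieBracket ℝ Y₁ Y₂ 0 - lieBracket ℝ Y₁' Y₂ 0 ∈ W.H x ∧
      lieBracket ℝ Y₂ Y₁ 0 - lieBracket ℝ Y₂ Y₁' 0 ∈ W.H x := by
  obtain ⟨Y₁', h', e⟩ := g.ex 2 _ (g.mem 1 _ h)
  have h1 := g.mono 2 1 _ (by norm_num) h'
  have h0 : (fun q => Y₁ q - Y₁' q) 0 = 0 := by simp [e]
  refine ⟨Y₁', h', h1, fun Y₂ => ⟨?_, ?_⟩⟩
  · rw [← br_sub_left h.diff h1.diff, br_zero_left (Y₁ := fun q => Y₁ q - Y₁' q) h0]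
    exact Submodule.neg_mem _ (g.der _ (h.sub h1) h0 _)
  · rw [← br_sub_right h.diff h1.diff, br_zero_right (Y₂ := fun q => Y₁ q - Y₁' q) h0]
    exact g.der _ (h.sub h1) h0 _

theorem Br0.swap {H₁ H₂ H₃ : SSub T} (h : Br0 H₁ H₂ H₃) : Br0 H₂ H₁ H₃ := by
  filter_upwards [h] with x hx Y₁ Y₂ h₁ h₂
  rw [lieBracket_swap]
  exact Submodule.neg_mem _ (hx _ _ h₂ h₁)

theorem br0_of_chr (P : Prob S Y) {H₁ H₂ H₃ : SSub T} (h : ∀ᵐ x ∂S.μ, H₁.H x ≤ H₃.H x)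
    (h' : ∀ᵐ x ∂S.μ, H₁.H x ≤ chr H₁ H₂ H₃ x) : Br0 H₁ H₂ H₃ := by
  filter_upwards [mem_chr P (H₂ := H₂) h, h', ae_gd P H₁] with x h1 h2 g Y₁ Y₂ h₁ h₂
  exact h1.2 _ _ h₁ (h2 (g.mem 1 _ h₁)) h₂

/-- `F` is the largest subbundle of class S in the stable bundle -/
def IsMax (F : SSub T) : Prop := (∀ᵐ x ∂S.μ, F.H x ≤ S.Es) ∧
  ∀ H : X → Submodule ℝ V, IsS T H → (∀ᵐ x ∂S.μ, H x ≤ S.Es) → ∀ᵐ x ∂S.μ, H x ≤ F.H x

theorem exists_isMax (P : Prob S Y) (T : Bun S V) : ∃ F : SSub T, IsMax F := by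
  obtain ⟨W₀, h₀⟩ := IsS.bot (𝔉 := T)
  obtain ⟨F, hF, hm⟩ := exists_max P (fun W : SSub T => ∀ᵐ x ∂S.μ, W.H x ≤ S.Es)
    ⟨W₀, by filter_upwards [h₀] with x hx; rw [hx]; exact bot_le⟩
  refine ⟨F, hF, ?_⟩
  rintro H ⟨W, hW⟩ hH
  obtain ⟨W', hW'⟩ := F.isS.sup P W.isS
  have h1 := hm W' (by
    filter_upwards [hW', hF, hW, hH] with x a b c d
    rw [a, c]; exact sup_le b d) (by
    filter_upwards [hW'] with x a
    rw [a]; exact le_sup_left)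
  filter_upwards [h1, hW', hW] with x a b c
  rw [← c, ← a, b]
  exact le_sup_right

theorem br_mem_Es {Y₁ Y₂ : V → V} (h₁ : Y₁ 0 ∈ S.Es) (h₂ : Y₂ 0 ∈ S.Es)
    (d₁ : ∀ w, S.pU (fderiv ℝ Y₁ 0 (S.iS w)) = 0) (d₂ : ∀ w, S.pU (fderiv ℝ Y₂ 0 (S.iS w)) = 0) :
    lieBracket ℝ Y₁ Y₂ 0 ∈ S.Es := by
  rw [S.mem_Es, lieBracket, map_sub, ← S.eq_iS h₁, ← S.eq_iS h₂, d₁, d₂, sub_zero]

theorem IsMax.brFF (P : Prob S Y) (hT : IsTan T) {F : SSub T} (h : IsMax F) : Br0 F F F := by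
  have h1 := h.2 _ (isS_brSpan P hT F F) (by
    filter_upwards [sec_tanS hT h.1, h.1, ae_gd P F] with x a b g
    refine Submodule.span_le.2 ?_
    rintro _ ⟨Y₁, Y₂, h₁, h₂, rfl⟩
    exact br_mem_Es (b (g.mem 1 _ h₁)) (b (g.mem 1 _ h₂)) (a _ h₁) (a _ h₂))
  filter_upwards [h1] with x a Y₁ Y₂ h₁ h₂
  exact a (Submodule.subset_span ⟨Y₁, Y₂, h₁, h₂, rfl⟩)

theorem es_le {F C : SSub T} (hF : ∀ᵐ x ∂S.μ, F.H x ≤ S.Es)
    (hC : ∀ᵐ x ∂S.μ, C.H x = S.perp (F.H x)) : ∀ᵐ x ∂S.μ, S.Es ≤ C.H x := by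
  filter_upwards [hF, hC] with x a b
  rw [b, ← S.perp_Es]
  exact S.perp_anti a

theorem IsMax.brFC (P : Prob S Y) {F C : SSub S.TV} (h : IsMax F)
    (hC : ∀ᵐ x ∂S.μ, C.H x = S.perp (F.H x)) : Br0 F C C := by
  have hT := tan_TV S
  have hE := es_le h.1 hC
  obtain ⟨C₁, h₁⟩ := isS_chr P hT C F C
  have h2 : ∀ᵐ x ∂S.μ, S.Es ≤ C₁.H x := by
    filter_upwards [h₁, es_sec hT hE, sec_tanS hT h.1, h.1, hE, ae_gd P F] with x a b c d e g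
    rintro _ ⟨w, rfl⟩
    obtain ⟨Y₁, s₁, e₁, d₁⟩ := b w
    rw [a]
    refine Submodule.subset_span ⟨Y₁, s₁, e₁, fun Y₂ s₂ => e ?_⟩
    refine br_mem_Es (by rw [e₁]; exact ⟨w, rfl⟩) (d (g.mem 1 _ s₂)) (fun w' => ?_) (c _ s₂)
    rw [d₁, map_zero]
  have h3 := h.2 _ (isS_perp P C₁) (by
    filter_upwards [h2] with x a
    rw [← S.perp_Es]
    exact S.perp_anti a)
  refine (br0_of_chr P (Eventually.of_forall fun _ => le_rfl) ?_).swap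
  filter_upwards [h3, h₁, hC] with x a b c
  rw [← b, c, ← S.perp_perp (C₁.H x)]
  exact S.perp_anti a

/-- the characteristic bundle of `C` -/
theorem exists_K (P : Prob S Y) (hT : IsTan T) {F C : SSub T} (hF : ∀ᵐ x ∂S.μ, F.H x ≤ S.Es)
    (hne : ∀ᵐ x ∂S.μ, F.H x ≠ S.Es) (hC : ∀ᵐ x ∂S.μ, C.H x = S.perp (F.H x)) (hb : Br0 F C C) :
    ∃ K : SSub T, (∀ᵐ x ∂S.μ, F.H x < K.H x) ∧ (∀ᵐ x ∂S.μ, K.H x ≤ C.H x) ∧ Br0 K K K := by
  obtain ⟨K, hK⟩ := isS_chr P hT C C C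
  have hE := es_le hF hC
  have hFC : ∀ᵐ x ∂S.μ, F.H x ≤ C.H x := by
    filter_upwards [hF, hE] with x a b using a.trans b
  have hm := mem_chr P (H₁ := C) (H₂ := C) (H₃ := C) (Eventually.of_forall fun _ => le_rfl)
  have hKC : ∀ᵐ x ∂S.μ, K.H x ≤ C.H x := by
    filter_upwards [hm, hK] with x a b
    rw [b]; exact a.1
  have hs := sec_le P hKC
  have b0 : Br0 K C C := by
    filter_upwards [hm, hK, hs, ae_gd P K] with x a b c g Y₁ Y₂ h₁ h₂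
    exact a.2 _ _ (c 1 1 _ le_rfl h₁) (b ▸ g.mem 1 _ h₁) h₂
  refine ⟨K, ?_, hKC, ?_⟩
  · filter_upwards [hK, levi P hT hF hC hb, hne, sec_le P hFC, hb, ae_gd P F] with x a b c d e g
    refine lt_of_le_not_ge (fun v hv => ?_) (a ▸ b c)
    obtain ⟨Y₁, s₁, e₁⟩ := g.ex 1 v hv
    rw [a]
    exact Submodule.subset_span ⟨Y₁, d 1 1 _ le_rfl s₁, e₁, fun Y₂ s₂ => e _ _ s₁ s₂⟩
  · filter_upwards [hK, hs, b0, br_of_br0 P hT b0, ae_gd P K, ae_gd P C] with x a c d e g g' Y₁ Y₂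
      h₁ h₂
    obtain ⟨Z₁, s₁, t₁, u₁⟩ := g.two h₁
    obtain ⟨Z₂, s₂, t₂, u₂⟩ := g.two h₂
    have k1 : lieBracket ℝ Z₁ Z₂ 0 ∈ K.H x := by
      rw [a]
      refine Submodule.subset_span ⟨_, e 1 _ _ s₁ (c 2 2 _ le_rfl s₂), rfl, fun Y₃ h₃ => ?_⟩
      obtain ⟨Z₃, s₃, t₃, u₃⟩ := g'.two h₃
      have k2 : lieBracket ℝ (lieBracket ℝ Z₁ Z₂) Z₃ 0 ∈ C.H x := by
        rw [br_jac s₁.1 s₂.1 s₃.1]
        exact Submodule.sub_mem _ (d _ _ t₁ (e 1 _ _ s₂ s₃)) (d _ _ t₂ (e 1 _ _ s₁ s₃))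
      simpa using Submodule.add_mem _ (u₃ (lieBracket ℝ Z₁ Z₂)).2 k2
    simpa using Submodule.add_mem _ (u₁ Y₂).1 (Submodule.add_mem _ (u₂ Z₁).2 k1)

end Vale.Agent.P207Z
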